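import Mathlib

set_option autoImplicit false

open Filter Topology

namespace Crest.Agent.H0140

/-- finitely supported real sequences -/
abbrev V : Type := ℕ →₀ ℝ

/-- the linear functional with coefficients `g` -/
noncomputable def lc (g : ℕ → ℝ) : V →ₗ[ℝ] ℝ := Finsupp.linearCombination ℝ g

lemma lc_single (g : ℕ → ℝ) (i : ℕ) (c : ℝ) : lc g (Finsupp.single i c) = c * g i := by
  simp [lc]

lemma lc_mapDomain (g : ℕ → ℝ) (φ : ℕ → ℕ) (a : V) :
    lc g (Finsupp.mapDomain φ a) = lc (g ∘ φ) a := by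
  unfold lc
  rw [Finsupp.linearCombination_mapDomain]

lemma lc_eq_sum (g : ℕ → ℝ) (a : V) : lc g a = ∑ i ∈ a.support, a i * g i := by
  simp [lc, Finsupp.linearCombination_apply, Finsupp.sum]

lemma lc_congr {g h : ℕ → ℝ} {a : V} (H : ∀ i ∈ a.support, g i = h i) : lc g a = lc h a := by
  rw [lc_eq_sum, lc_eq_sum]
  exact Finset.sum_congr rfl fun i hi => by rw [H i hi]

lemma lc_sub (g h : ℕ → ℝ) (a : V) : lc g a - lc h a = lc (fun i => g i - h i) a := by
  simp only [lc_eq_sum, ← Finset.sum_sub_distrib, mul_sub]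

lemma lc_apply (a : V) (l : ℕ) : lc (fun i => if i = l then 1 else 0) a = a l := by
  rw [lc_eq_sum]
  simp only [mul_ite, mul_one, mul_zero, Finset.sum_ite_eq']
  split_ifs with h
  · rfl
  · exact (Finsupp.notMem_support_iff.1 h).symm

/-- tail sums -/
noncomputable def tail (k : ℕ) : V →ₗ[ℝ] ℝ := lc (fun i => if k ≤ i then 1 else 0)

/-- head sums -/
noncomputable def head (k : ℕ) : V →ₗ[ℝ] ℝ := lc (fun i => if i < k then 1 else 0)

/-- Markov type inequality for a function `N` -/
def MT (p K : ℝ) {E : Type*} [AddCommGroup E] (N : E → ℝ) : Prop :=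
  ∀ (S : Type) [Fintype S] [DecidableEq S] (w : S → ℝ) (P : Matrix S S ℝ),
    (∀ i, 0 ≤ w i) → ∑ i, w i = 1 → (∀ i j, 0 ≤ P i j) → (∀ i, ∑ j, P i j = 1) →
    (∀ i j, w i * P i j = w j * P j i) →
    ∀ (f : S → E) (t : ℕ), 1 ≤ t →
      ∑ i, ∑ j, w i * (P ^ t) i j * N (f j - f i) ^ p ≤
        K ^ p * t * ∑ i, ∑ j, w i * P i j * N (f j - f i) ^ p

structure Good (p K : ℝ) (N : V → ℝ) : Prop where
  add_le : ∀ x y, N (x + y) ≤ N x + N y
  smul : ∀ (c : ℝ) x, N (c • x) = |c| * N x
  single_le : ∀ i, N (Finsupp.single i 1) ≤ 1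
  mt : MT p K N

/-- lower bound by tail sums -/
def Low (θ : ℝ) (N : V → ℝ) : Prop := ∀ k a, θ * |tail k a| ≤ N a

namespace Good

variable {p K : ℝ} {N : V → ℝ}

lemma zero (h : Good p K N) : N 0 = 0 := by
  have := h.smul 0 0
  simpa using this

lemma neg (h : Good p K N) (x : V) : N (-x) = N x := by
  have := h.smul (-1) x
  simpa using this

lemma nonneg (h : Good p K N) (x : V) : 0 ≤ N x := by
  have h1 := h.add_le x (-x)
  rw [add_neg_cancel, h.zero, h.neg] at h1
  linarith

lemma sub_le (h : Good p K N) (x y : V) : N (x - y) ≤ N x + N y := by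
  rw [sub_eq_add_neg, ← h.neg y]; exact h.add_le _ _

lemma sum_le (h : Good p K N) {ι : Type*} (s : Finset ι) (f : ι → V) :
    N (∑ i ∈ s, f i) ≤ ∑ i ∈ s, N (f i) := by
  classical
  induction s using Finset.induction_on with
  | empty => simp [h.zero]
  | insert a s ha ih =>
    rw [Finset.sum_insert ha, Finset.sum_insert ha]
    exact (h.add_le _ _).trans (by linarith)

lemma single_le' (h : Good p K N) (i : ℕ) (c : ℝ) : N (Finsupp.single i c) ≤ |c| := by
  have : Finsupp.single i c = c • (Finsupp.single i (1 : ℝ) : V) := by simp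
  rw [this, h.smul]
  have := h.single_le i
  have h0 := abs_nonneg c
  nlinarith

lemma le_l1 (h : Good p K N) (a : V) : N a ≤ ∑ i ∈ a.support, |a i| := by
  conv_lhs => rw [← Finsupp.sum_single a, Finsupp.sum]
  exact (h.sum_le _ _).trans (Finset.sum_le_sum fun i _ => h.single_le' i _)

/-- precomposition with a linear map sending basis vectors to vectors of norm at most one -/
lemma comp (h : Good p K N) (T : V →ₗ[ℝ] V) (hT : ∀ i, N (T (Finsupp.single i 1)) ≤ 1) :
    Good p K (fun a => N (T a)) where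
  add_le x y := by rw [map_add]; exact h.add_le _ _
  smul c x := by rw [map_smul]; exact h.smul _ _
  single_le := hT
  mt := by
    intro S _ _ w P h1 h2 h3 h4 h5 f t ht
    have := h.mt S w P h1 h2 h3 h4 h5 (fun s => T (f s)) t ht
    simpa only [map_sub] using this

lemma of_tendsto (hp : 0 ≤ p) {ι : Type*} (F : Filter ι) [F.NeBot] (Ns : ι → V → ℝ)
    (hNs : ∀ i, Good p K (Ns i)) (hlim : ∀ a, Tendsto (fun i => Ns i a) F (𝓝 (N a))) :
    Good p K N where
  add_le x y := le_of_tendsto_of_tendsto' (hlim (x + y)) ((hlim x).add (hlim y))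
    fun i => (hNs i).add_le x y
  smul c x := by
    have h1 := hlim (c • x)
    have h2 := (hlim x).const_mul |c|
    have : (fun i => Ns i (c • x)) = fun i => |c| * Ns i x := funext fun i => (hNs i).smul c x
    rw [this] at h1
    exact tendsto_nhds_unique h1 h2
  single_le i := le_of_tendsto' (hlim _) fun j => (hNs j).single_le i
  mt := by
    intro S _ _ w P h1 h2 h3 h4 h5 f t ht
    have key : ∀ (Q : S → S → ℝ), Tendsto (fun i => ∑ a, ∑ b, Q a b * Ns i (f b - f a) ^ p) F
        (𝓝 (∑ a, ∑ b, Q a b * N (f b - f a) ^ p)) := by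
      intro Q
      refine tendsto_finsetSum _ fun a _ => tendsto_finsetSum _ fun b _ => ?_
      exact ((hlim _).rpow_const (Or.inr hp)).const_mul _
    refine le_of_tendsto_of_tendsto' (key fun a b => w a * (P ^ t) a b)
      ((key fun a b => w a * P a b).const_mul (K ^ p * t)) fun i => ?_
    exact (hNs i).mt S w P h1 h2 h3 h4 h5 f t ht

end Good

lemma exists_ulim {p K : ℝ} (hp : 0 ≤ p) {ι : Type*} (U : Ultrafilter ι) (Ns : ι → V → ℝ)
    (hNs : ∀ i, Good p K (Ns i)) :
    ∃ N : V → ℝ, Good p K N ∧ ∀ a, Tendsto (fun i => Ns i a) U (𝓝 (N a)) := by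
  have : ∀ a : V, ∃ r : ℝ, Tendsto (fun i => Ns i a) U (𝓝 r) := by
    intro a
    have hc : IsCompact (Set.Icc (0 : ℝ) (∑ i ∈ a.support, |a i|)) := isCompact_Icc
    obtain ⟨r, -, hr⟩ := hc.ultrafilter_le_nhds (U.map fun i => Ns i a) (by
      rw [Ultrafilter.coe_map, le_principal_iff, mem_map]
      exact Filter.univ_mem' fun i => ⟨(hNs i).nonneg a, (hNs i).le_l1 a⟩)
    exact ⟨r, hr⟩
  choose N hN using this
  exact ⟨N, Good.of_tendsto hp U Ns hNs hN, hN⟩

end Crest.Agent.H0140
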