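import Crest.Agent.H0140.Basic

set_option autoImplicit false

open Finset

namespace Crest.Agent.H0140

/-- weight of labelled non-backtracking paths -/
noncomputable def pathW {S A : Type} [Fintype S] [Fintype A] [DecidableEq A] (w : S → ℝ)
    (σ : A → A) (C : S → A → S → ℝ) : ℕ → S → S → A → ℝ
  | 0, s0, s, a => C s0 a s
  | j + 1, s0, s', b => ∑ s, ∑ a, if b ≠ σ a then pathW w σ C j s0 s a * (C s b s' / w s) else 0

lemma chain_bound {p K : ℝ} (hp : 0 < p) (hK : 0 ≤ K) {N : V → ℝ} (hN : Good p K N)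
    {S A : Type} [Fintype S] [DecidableEq S] [Fintype A] [DecidableEq A]
    (w : S → ℝ) (hw0 : ∀ s, 0 ≤ w s) (hw1 : ∑ s, w s = 1)
    (σ : A → A) (hσ : Function.Involutive σ)
    (C : S → A → S → ℝ) (hC0 : ∀ s a s', 0 ≤ C s a s') (hCs : ∀ s a s', C s a s' = C s' (σ a) s)
    (κ : ℝ) (hκ : 0 ≤ κ) (hrow : ∀ s a, ∑ s', C s a s' ≤ κ * w s)
    (hrow' : ∀ s, ∑ a, ∑ s', C s a s' ≤ w s)
    (η : ℝ) (htot : 1 - η ≤ ∑ s, ∑ a, ∑ s', C s a s')
    (f : S → V) (Inv : ℕ → S → S → A → Prop)
    (h0 : ∀ s a s', 0 < C s a s' → Inv 0 s s' a)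
    (hstep : ∀ j s0 s a b s', Inv j s0 s a → b ≠ σ a → 0 < C s b s' → Inv (j + 1) s0 s' b)
    (t : ℕ) (D lam : ℝ) (hD0 : 0 ≤ D)
    (hD : ∀ s0 s a, Inv t s0 s a → D ≤ N (f s - f s0))
    (hlam0 : 0 ≤ lam) (hlam : ∀ s a s', 0 < C s a s' → N (f s' - f s) ≤ lam) :
    (1 - (t + 1) * (η + κ)) * D ^ p ≤ K ^ p * (t + 1) * lam ^ p := by
  have hCw : ∀ s a s', w s * (C s a s' / w s) = C s a s' := by
    intro s a s'
    rcases (hw0 s).eq_or_lt with h | h
    · have e1 := hrow s a
      rw [← h, mul_zero] at e1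
      have e2 : C s a s' ≤ ∑ s', C s a s' := single_le_sum (fun i _ => hC0 s a i) (mem_univ s')
      have := hC0 s a s'
      rw [← h, zero_mul]; linarith
    · field_simp
  set R : S → ℝ := fun s => ∑ a, ∑ s', C s a s' / w s with hR
  have hRw : ∀ s, w s * R s = ∑ a, ∑ s', C s a s' := by
    intro s; simp only [hR, mul_sum, hCw]
  have hR1 : ∀ s, R s ≤ 1 := by
    intro s
    simp only [hR, ← sum_div]
    exact div_le_one_of_le₀ (hrow' s) (hw0 s)
  have hq0 : ∀ s a s', 0 ≤ C s a s' / w s := fun s a s' => div_nonneg (hC0 s a s') (hw0 s)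
  have hqκ : ∀ s a, ∑ s', C s a s' / w s ≤ κ := by
    intro s a
    rw [← sum_div]
    exact div_le_of_le_mul₀ (hw0 s) hκ (hrow s a)
  set P : Matrix S S ℝ := Matrix.of fun s s' =>
    (∑ a, C s a s' / w s) + if s = s' then 1 - R s else 0 with hP
  have hPge : ∀ s s', ∑ a, C s a s' / w s ≤ P s s' := by
    intro s s'
    simp only [hP, Matrix.of_apply]
    have := hR1 s
    split_ifs <;> linarith
  have hP0 : ∀ s s', 0 ≤ P s s' := fun s s' => (sum_nonneg fun a _ => hq0 s a s').trans (hPge s s')
  have hP1 : ∀ s, ∑ s', P s s' = 1 := by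
    intro s
    simp only [hP, Matrix.of_apply, sum_add_distrib, sum_ite_eq, mem_univ, if_true]
    rw [sum_comm]
    simp [hR]
  have hwP : ∀ s s', w s * P s s' = (∑ a, C s a s') + if s = s' then w s * (1 - R s) else 0 := by
    intro s s'
    simp only [hP, Matrix.of_apply, mul_add, mul_sum, hCw, mul_ite, mul_zero]
  have hrev : ∀ s s', w s * P s s' = w s' * P s' s := by
    intro s s'
    rw [hwP, hwP]
    congr 1
    · rw [← Equiv.sum_comp hσ.toPerm (fun a => C s' a s)]
      exact sum_congr rfl fun a _ => hCs s a s'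
    · by_cases h : s = s'
      · subst h; rfl
      · rw [if_neg h, if_neg (Ne.symm h)]
  have hPp0 : ∀ j s s', 0 ≤ (P ^ j) s s' := by
    intro j
    induction j with
    | zero => intro s s'; rw [pow_zero, Matrix.one_apply]; split_ifs <;> norm_num
    | succ j ih =>
      intro s s'
      rw [pow_succ, Matrix.mul_apply]
      exact sum_nonneg fun u _ => mul_nonneg (ih s u) (hP0 u s')
  have hstat : ∀ j s, ∑ s0, w s0 * (P ^ j) s0 s = w s := by
    intro j
    induction j with
    | zero => intro s; simp [Matrix.one_apply]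
    | succ j ih =>
      intro s
      simp only [pow_succ, Matrix.mul_apply, mul_sum, ← mul_assoc]
      rw [sum_comm]
      simp only [← sum_mul, ih, hrev _ s, ← mul_sum, hP1, mul_one]
  set m := pathW w σ C with hm
  have hm0 : ∀ j s0 s a, 0 ≤ m j s0 s a := by
    intro j
    induction j with
    | zero => intro s0 s a; exact hC0 _ _ _
    | succ j ih =>
      intro s0 s' b
      refine sum_nonneg fun s _ => sum_nonneg fun a _ => ?_
      split_ifs
      · exact mul_nonneg (ih _ _ _) (hq0 _ _ _)
      · exact le_rfl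
  have hmP : ∀ j s0 s, ∑ a, m j s0 s a ≤ w s0 * (P ^ (j + 1)) s0 s := by
    intro j
    induction j with
    | zero =>
      intro s0 s
      rw [zero_add, pow_one]
      refine le_trans (le_of_eq ?_) (mul_le_mul_of_nonneg_left (hPge s0 s) (hw0 s0))
      simp only [mul_sum, hCw]
      rfl
    | succ j ih =>
      intro s0 s'
      rw [pow_succ, Matrix.mul_apply, mul_sum]
      calc ∑ b, m (j + 1) s0 s' b ≤ ∑ b, ∑ s, ∑ a, m j s0 s a * (C s b s' / w s) := by
            refine sum_le_sum fun b _ => sum_le_sum fun s _ => sum_le_sum fun a _ => ?_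
            split_ifs
            · exact le_rfl
            · exact mul_nonneg (hm0 _ _ _ _) (hq0 _ _ _)
        _ = ∑ s, (∑ a, m j s0 s a) * ∑ b, C s b s' / w s := by
            rw [sum_comm]
            refine sum_congr rfl fun s _ => ?_
            rw [sum_mul_sum, sum_comm]
        _ ≤ _ := by
            refine sum_le_sum fun s _ => ?_
            rw [← mul_assoc]
            exact mul_le_mul (ih s0 s) (hPge s s') (sum_nonneg fun a _ => hq0 _ _ _)
              (mul_nonneg (hw0 s0) (hPp0 _ _ _))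
  have hmI : ∀ j s0 s a, 0 < m j s0 s a → Inv j s0 s a := by
    intro j
    induction j with
    | zero => intro s0 s a h; exact h0 _ _ _ h
    | succ j ih =>
      intro s0 s' b h
      have h' : ∑ s, ∑ a, (if b ≠ σ a then m j s0 s a * (C s b s' / w s) else 0) ≠ 0 := h.ne'
      obtain ⟨s, -, h⟩ := exists_ne_zero_of_sum_ne_zero h'
      obtain ⟨a, -, h⟩ := exists_ne_zero_of_sum_ne_zero h
      have hb : b ≠ σ a := by
        intro hb
        simp [hb] at h
      rw [if_pos hb] at h
      have h1 : 0 < m j s0 s a := lt_of_le_of_ne (hm0 _ _ _ _) (left_ne_zero_of_mul h).symm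
      have h2 : 0 < C s b s' / w s := lt_of_le_of_ne (hq0 _ _ _) (right_ne_zero_of_mul h).symm
      have h3 : 0 < C s b s' := by
        rcases (hC0 s b s').eq_or_lt with h4 | h4
        · rw [← h4] at h2; simp at h2
        · exact h4
      exact hstep j s0 s a b s' (ih _ _ _ h1) hb h3
  have hMw : ∀ j s, ∑ s0, ∑ a, m j s0 s a ≤ w s := fun j s =>
    (sum_le_sum fun s0 _ => hmP j s0 s).trans (hstat _ s).le
  have hdef : ∑ s, w s * (1 - R s) ≤ η := by
    simp only [mul_sub, mul_one, sum_sub_distrib, hw1, hRw]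
    linarith
  have htotal : ∀ j : ℕ, 1 - (j + 1) * (η + κ) ≤ ∑ s, ∑ s0, ∑ a, m j s0 s a := by
    intro j
    induction j with
    | zero =>
      have : ∑ s, ∑ s0, ∑ a, m 0 s0 s a = ∑ s, ∑ a, ∑ s', C s a s' := by
        rw [sum_comm]
        refine sum_congr rfl fun s _ => ?_
        rw [sum_comm]
        rfl
      rw [this]
      push_cast
      linarith
    | succ j ih =>
      have e1 : ∑ s', ∑ s0, ∑ b, m (j + 1) s0 s' b =
          ∑ s, ∑ s0, ∑ a, m j s0 s a * (R s - ∑ s', C s (σ a) s' / w s) := by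
        have : ∀ s s0 a, m j s0 s a * (R s - ∑ s', C s (σ a) s' / w s) =
            ∑ s', ∑ b, if b ≠ σ a then m j s0 s a * (C s b s' / w s) else 0 := by
          intro s s0 a
          rw [sum_comm]
          have : ∀ b, (∑ s', if b ≠ σ a then m j s0 s a * (C s b s' / w s) else 0) =
              m j s0 s a * (∑ s', C s b s' / w s) -
                if b = σ a then m j s0 s a * (∑ s', C s b s' / w s) else 0 := by
            intro b
            by_cases hb : b = σ a
            · simp [hb]
            · simp [hb, mul_sum]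
          simp only [this, sum_sub_distrib, sum_ite_eq', mem_univ, if_true, hR, mul_sub, mul_sum]
        simp only [this]
        calc ∑ s', ∑ s0, ∑ b, m (j + 1) s0 s' b
            = ∑ s0, ∑ s', ∑ b, ∑ s, ∑ a,
                if b ≠ σ a then m j s0 s a * (C s b s' / w s) else 0 := by rw [sum_comm]; rfl
          _ = ∑ s0, ∑ s, ∑ a, ∑ s', ∑ b,
                if b ≠ σ a then m j s0 s a * (C s b s' / w s) else 0 := by
              refine sum_congr rfl fun s0 _ => ?_
              rw [← sum_product', ← sum_product' (s := (univ : Finset S)) (t := (univ : Finset A))]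
              simp only [← sum_product' (s := (univ : Finset S)) (t := (univ : Finset A))]
              rw [sum_comm]
          _ = _ := by rw [sum_comm]
      rw [e1]
      have e2 : ∀ s, (∑ s0, ∑ a, m j s0 s a) - w s * (1 - R s) - κ * w s ≤
          ∑ s0, ∑ a, m j s0 s a * (R s - ∑ s', C s (σ a) s' / w s) := by
        intro s
        have e3 : (∑ s0, ∑ a, m j s0 s a) * (R s - κ) ≤
            ∑ s0, ∑ a, m j s0 s a * (R s - ∑ s', C s (σ a) s' / w s) := by
          simp only [sum_mul]
          refine sum_le_sum fun s0 _ => sum_le_sum fun a _ => ?_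
          exact mul_le_mul_of_nonneg_left (by linarith [hqκ s (σ a)]) (hm0 _ _ _ _)
        have e4 := hMw j s
        have e5 := hR1 s
        have e6 := mul_le_mul_of_nonneg_right e4 (show 0 ≤ 1 - R s + κ by linarith)
        linarith
      have e3 := sum_le_sum fun s (_ : s ∈ univ) => e2 s
      simp only [sum_sub_distrib, ← mul_sum, hw1] at e3
      push_cast
      linarith
  have hmt := hN.mt S w P hw0 hw1 hP0 hP1 hrev f (t + 1) (by omega)
  have hL : (1 - (t + 1) * (η + κ)) * D ^ p ≤
      ∑ i, ∑ j, w i * (P ^ (t + 1)) i j * N (f j - f i) ^ p := by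
    refine (mul_le_mul_of_nonneg_right (htotal t) (Real.rpow_nonneg hD0 p)).trans ?_
    rw [sum_comm, sum_mul]
    refine sum_le_sum fun s0 _ => ?_
    rw [sum_mul]
    refine sum_le_sum fun s _ => ?_
    refine le_trans ?_ (mul_le_mul_of_nonneg_right (hmP t s0 s)
      (Real.rpow_nonneg (hN.nonneg _) p))
    rw [sum_mul, sum_mul]
    refine sum_le_sum fun a _ => ?_
    rcases (hm0 t s0 s a).eq_or_lt with h | h
    · rw [← h]; simp
    · exact mul_le_mul_of_nonneg_left (Real.rpow_le_rpow hD0 (hD _ _ _ (hmI _ _ _ _ h)) hp.le) h.le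
  have hRR : ∑ i, ∑ j, w i * P i j * N (f j - f i) ^ p ≤ lam ^ p := by
    calc ∑ i, ∑ j, w i * P i j * N (f j - f i) ^ p ≤ ∑ i, ∑ j, (∑ a, C i a j) * lam ^ p := by
          refine sum_le_sum fun i _ => sum_le_sum fun j _ => ?_
          rw [hwP, add_mul]
          have e1 : (if i = j then w i * (1 - R i) else 0) * N (f j - f i) ^ p = 0 := by
            split_ifs with h
            · rw [h, sub_self, hN.zero, Real.zero_rpow hp.ne', mul_zero]
            · rw [zero_mul]
          rw [e1, add_zero, sum_mul, sum_mul]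
          refine sum_le_sum fun a _ => ?_
          rcases (hC0 i a j).eq_or_lt with h | h
          · rw [← h]; simp
          · exact mul_le_mul_of_nonneg_left
              (Real.rpow_le_rpow (hN.nonneg _) (hlam _ _ _ h) hp.le) h.le
      _ = (∑ i, ∑ a, ∑ j, C i a j) * lam ^ p := by
          rw [sum_mul]
          refine sum_congr rfl fun i _ => ?_
          rw [← sum_mul, sum_comm]
      _ ≤ lam ^ p := by
          refine mul_le_of_le_one_left (Real.rpow_nonneg hlam0 p) ?_
          exact (sum_le_sum fun s _ => hrow' s).trans hw1.le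
  have := mul_le_mul_of_nonneg_left hRR
    (show 0 ≤ K ^ p * ((t + 1 : ℕ) : ℝ) from mul_nonneg (Real.rpow_nonneg hK p) (by positivity))
  push_cast at this hmt
  linarith

end Crest.Agent.H0140
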