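import Crest.Agent.H0140.Basic

set_option autoImplicit false

open Finset

namespace Crest.Agent.H0140

lemma min_aux {a b : ℝ} (ha : 0 ≤ a) (hb : 0 ≤ b) : a - |a - b| ≤ a * (b / max a b) := by
  rcases le_total a b with h | h
  · rw [max_eq_right h]
    rcases hb.eq_or_lt with h0 | h0
    · have : a = 0 := by linarith
      simp [this]
    · rw [div_self h0.ne', mul_one]
      linarith [abs_nonneg (a - b)]
  · rw [max_eq_left h, abs_of_nonneg (by linarith)]
    rcases ha.eq_or_lt with h0 | h0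
    · have : b = 0 := by linarith
      simp [this]
    · rw [mul_div_cancel₀ _ h0.ne']
      linarith

open Classical in
lemma exists_coupling {Ω A T : Type} [Fintype Ω] [Fintype A] [Nonempty A]
    (μ : Ω → ℝ) (hμ0 : ∀ s, 0 ≤ μ s) (hμ1 : ∑ s, μ s = 1)
    (σ : A → A) (hσ : Function.Involutive σ) (q : Ω → A → T) (η : ℝ)
    (h : ∀ a (s : Finset T), ∑ x ∈ s, |(∑ ω, if q ω a = x then μ ω else 0) -
      (∑ ω, if q ω (σ a) = x then μ ω else 0)| ≤ η) :
    ∃ C : Ω → A → Ω → ℝ, (∀ s a s', 0 ≤ C s a s') ∧ (∀ s a s', C s a s' = C s' (σ a) s) ∧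
      (∀ s a, ∑ s', C s a s' ≤ (1 / (Fintype.card A : ℝ)) * μ s) ∧
      (1 - η ≤ ∑ s, ∑ a, ∑ s', C s a s') ∧
      ∀ ω a ω', 0 < C ω a ω' → q ω' (σ a) = q ω a := by
  set c : ℝ := ((Fintype.card A : ℕ) : ℝ) with hc
  have hc0 : 0 < c := by rw [hc]; exact_mod_cast Fintype.card_pos
  set ν : A → T → ℝ := fun a x => ∑ ω, if q ω a = x then μ ω else 0 with hν
  have hν0 : ∀ a x, 0 ≤ ν a x := fun a x => sum_nonneg fun ω _ => by
    split_ifs
    · exact hμ0 ω
    · exact le_rfl
  set C : Ω → A → Ω → ℝ := fun ω a ω' => if q ω' (σ a) = q ω a then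
    μ ω * μ ω' / (c * max (ν a (q ω a)) (ν (σ a) (q ω a))) else 0 with hC
  have hrow : ∀ ω a, ∑ ω', C ω a ω' =
      1 / c * (μ ω * (ν (σ a) (q ω a) / max (ν a (q ω a)) (ν (σ a) (q ω a)))) := by
    intro ω a
    conv_rhs => enter [2, 2, 1]; simp only [hν]
    rw [sum_div, mul_sum, mul_sum]
    refine sum_congr rfl fun ω' _ => ?_
    simp only [hC]
    split_ifs
    · rw [← div_div]; ring
    · simp
  refine ⟨C, ?_, ?_, ?_, ?_, ?_⟩
  · intro ω a ω'
    simp only [hC]
    split_ifs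
    · exact div_nonneg (mul_nonneg (hμ0 _) (hμ0 _))
        (mul_nonneg hc0.le ((hν0 _ _).trans (le_max_left _ _)))
    · exact le_rfl
  · intro ω a ω'
    simp only [hC, hσ a]
    by_cases hq : q ω' (σ a) = q ω a
    · rw [if_pos hq, if_pos hq.symm, hq, max_comm, mul_comm (μ ω)]
    · rw [if_neg hq, if_neg (Ne.symm hq)]
  · intro ω a
    rw [hrow]
    refine mul_le_mul_of_nonneg_left (mul_le_of_le_one_right (hμ0 ω) ?_) (by positivity)
    exact div_le_one_of_le₀ (le_max_right _ _) ((hν0 _ _).trans (le_max_left _ _))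
  · rw [sum_comm]
    have key : ∀ a, 1 / c * (1 - η) ≤ ∑ ω, ∑ ω', C ω a ω' := by
      intro a
      simp only [hrow, ← mul_sum]
      refine mul_le_mul_of_nonneg_left ?_ (by positivity)
      set s : Finset T := univ.image fun ω => q ω a with hs
      have e1 : ∀ g : T → ℝ, ∑ ω, μ ω * g (q ω a) = ∑ x ∈ s, ν a x * g x := by
        intro g
        simp only [hν, sum_mul]
        rw [sum_comm]
        refine sum_congr rfl fun ω _ => ?_
        simp only [ite_mul, zero_mul]
        rw [sum_ite_eq, if_pos (mem_image_of_mem _ (mem_univ ω))]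
      rw [e1 (fun x => ν (σ a) x / max (ν a x) (ν (σ a) x))]
      have e2 := e1 (fun _ => 1)
      simp only [mul_one, hμ1] at e2
      have e3 := h a s
      have e4 : ∑ x ∈ s, (ν a x - |ν a x - ν (σ a) x|) ≤
          ∑ x ∈ s, ν a x * (ν (σ a) x / max (ν a x) (ν (σ a) x)) :=
        sum_le_sum fun x _ => min_aux (hν0 _ _) (hν0 _ _)
      rw [sum_sub_distrib] at e4
      linarith
    refine le_trans (le_of_eq ?_) (sum_le_sum fun a _ => key a)
    rw [sum_const, card_univ, nsmul_eq_mul, ← hc]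
    field_simp
  · intro ω a ω' hpos
    by_contra hq
    simp [hC, hq] at hpos

end Crest.Agent.H0140
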