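import Crest.Agent.H0140.Chain

set_option autoImplicit false

open Finset

namespace Crest.Agent.H0140

/-- move coordinate `x` by `e` -/
def Step {Q : Type} {L : ℕ} (x : Q) (e : ℤ) (y y' : Q → Fin (L + 1)) : Prop :=
  (∀ x', x' ≠ x → y' x' = y x') ∧ ((y' x : ℕ) : ℤ) = (y x : ℕ) + e

lemma Step.symm {Q : Type} {L : ℕ} {x : Q} {e : ℤ} {y y' : Q → Fin (L + 1)} (h : Step x e y y') :
    Step x (-e) y' y := ⟨fun x' hx' => (h.1 x' hx').symm, by have := h.2; omega⟩

lemma Step.unique {Q : Type} {L : ℕ} {x : Q} {e : ℤ} {y y' y'' : Q → Fin (L + 1)}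
    (h : Step x e y y') (h' : Step x e y y'') : y' = y'' := by
  funext x'
  by_cases hx : x' = x
  · subst hx
    have := h.2
    have := h'.2
    exact Fin.ext (by omega)
  · rw [h.1 x' hx, h'.1 x' hx]

open Classical in
lemma step_count_le {Q : Type} [Fintype Q] [DecidableEq Q] {L : ℕ} (x : Q) (e : ℤ)
    (y : Q → Fin (L + 1)) : ∑ y', (if Step x e y y' then (1 : ℝ) else 0) ≤ 1 := by
  rw [sum_boole]
  have : #{y' : Q → Fin (L + 1) | Step x e y y'} ≤ 1 := card_le_one.2 fun a ha b hb =>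
    Step.unique (mem_filter.1 ha).2 (mem_filter.1 hb).2
  exact_mod_cast this

open Classical in
lemma step_count_ge {Q : Type} [Fintype Q] [DecidableEq Q] {L : ℕ} (x : Q) (e : ℤ)
    (he : e = 1 ∨ e = -1) :
    (Fintype.card (Q → Fin (L + 1)) : ℝ) * (1 - 1 / ((L : ℝ) + 1)) ≤
      ∑ y : Q → Fin (L + 1), ∑ y', (if Step x e y y' then (1 : ℝ) else 0) := by
  obtain ⟨c, hc⟩ : ∃ c : Fin (L + 1), ∀ y : Q → Fin (L + 1), y x ≠ c → ∃ y', Step x e y y' := by
    rcases he with rfl | rfl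
    · refine ⟨Fin.last L, fun y hy => ?_⟩
      have h1 : (y x : ℕ) ≠ L := fun h => hy (Fin.ext h)
      have h2 := (y x).2
      refine ⟨Function.update y x ⟨y x + 1, by omega⟩, fun x' hx' => Function.update_of_ne hx' _ _,
        by simp⟩
    · refine ⟨0, fun y hy => ?_⟩
      have h1 : (y x : ℕ) ≠ 0 := fun h => hy (Fin.ext h)
      have h2 := (y x).2
      refine ⟨Function.update y x ⟨y x - 1, by omega⟩, fun x' hx' => Function.update_of_ne hx' _ _,
        ?_⟩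
      simp only [Function.update_self]
      omega
  have h1 : ∑ y : Q → Fin (L + 1), (1 - if y x = c then (1 : ℝ) else 0) ≤
      ∑ y : Q → Fin (L + 1), ∑ y', (if Step x e y y' then (1 : ℝ) else 0) := by
    refine sum_le_sum fun y _ => ?_
    split_ifs with h
    · rw [sub_self]
      exact sum_nonneg fun _ _ => by split_ifs <;> norm_num
    · obtain ⟨y', hy'⟩ := hc y h
      refine le_trans ?_ (single_le_sum (f := fun y' => if Step x e y y' then (1 : ℝ) else 0)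
        (fun _ _ => by split_ifs <;> norm_num) (mem_univ y'))
      simp [hy']
  refine le_trans (le_of_eq ?_) h1
  rw [sum_sub_distrib, sum_boole]
  have h2 := Fintype.card_filter_piFinset_const_eq_of_mem (univ : Finset (Fin (L + 1))) x
    (mem_univ c)
  rw [Fintype.piFinset_univ] at h2
  rw [h2]
  obtain ⟨k, hk⟩ : ∃ k, Fintype.card Q = k + 1 :=
    ⟨Fintype.card Q - 1, by have := Fintype.card_pos_iff.2 ⟨x⟩; omega⟩
  simp only [Fintype.card_fun, Fintype.card_fin, sum_const, card_univ, nsmul_eq_mul, mul_one, hk,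
    Nat.add_sub_cancel]
  push_cast
  field_simp
  ring

open Classical in
lemma cocycle_bound {p K : ℝ} (hp : 0 < p) (hK : 0 ≤ K) {N : V → ℝ} (hN : Good p K N)
    {Ω A Q : Type} [Fintype Ω] [Fintype A] [DecidableEq A] [Fintype Q] [DecidableEq Q]
    (μ : Ω → ℝ) (hμ0 : ∀ s, 0 ≤ μ s) (hμ1 : ∑ s, μ s = 1)
    (σ : A → A) (hσ : Function.Involutive σ)
    (C : Ω → A → Ω → ℝ) (hC0 : ∀ s a s', 0 ≤ C s a s') (hCs : ∀ s a s', C s a s' = C s' (σ a) s)
    (κ : ℝ) (hκ : 0 ≤ κ) (hrow : ∀ s a, ∑ s', C s a s' ≤ κ * μ s)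
    (hrow' : ∀ s, ∑ a, ∑ s', C s a s' ≤ μ s)
    (η : ℝ) (htot : 1 - η ≤ ∑ s, ∑ a, ∑ s', C s a s')
    (q : Ω → A → Q) (hq : ∀ ω a ω', 0 < C ω a ω' → q ω' (σ a) = q ω a)
    (ε : A → ℤ) (hε : ∀ a, ε a = 1 ∨ ε a = -1) (hεσ : ∀ a, ε (σ a) = -ε a)
    (u : Q → V) (Inv : ℕ → V → Ω → A → Prop)
    (h0 : ∀ ω a ω', 0 < C ω a ω' → Inv 0 ((ε a : ℝ) • u (q ω a)) ω' a)
    (hstep : ∀ j d ω a b ω', Inv j d ω a → b ≠ σ a → 0 < C ω b ω' →
      Inv (j + 1) (d + (ε b : ℝ) • u (q ω b)) ω' b)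
    (t : ℕ) (D lam : ℝ) (hD0 : 0 ≤ D) (hD : ∀ d ω a, Inv t d ω a → D ≤ N d)
    (hlam0 : 0 ≤ lam) (hlam : ∀ x, N (u x) ≤ lam) (L : ℕ) :
    (1 - (t + 1) * (η + 1 / ((L : ℝ) + 1) + κ)) * D ^ p ≤ K ^ p * (t + 1) * lam ^ p := by
  set c : ℝ := ((Fintype.card (Q → Fin (L + 1)) : ℕ) : ℝ) with hc
  have hc0 : 0 < c := by
    rw [hc]; exact_mod_cast Fintype.card_pos
  set C' : (Ω × (Q → Fin (L + 1))) → A → (Ω × (Q → Fin (L + 1))) → ℝ := fun s a s' =>
    C s.1 a s'.1 / c * if Step (q s.1 a) (ε a) s.2 s'.2 then 1 else 0 with hC'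
  set f : (Ω × (Q → Fin (L + 1))) → V := fun s => ∑ x, ((s.2 x : ℕ) : ℝ) • u x with hf
  have hpos : ∀ s a s', 0 < C' s a s' → 0 < C s.1 a s'.1 ∧
      f s' - f s = (ε a : ℝ) • u (q s.1 a) := by
    intro s a s' h
    simp only [hC'] at h
    split_ifs at h with hst
    · rw [mul_one] at h
      refine ⟨(div_pos_iff_of_pos_right hc0).1 h, ?_⟩
      simp only [hf, ← sum_sub_distrib, ← sub_smul]
      rw [sum_eq_single (q s.1 a)]
      · congr 1
        have : (((s'.2 (q s.1 a) : ℕ) : ℤ) : ℝ) = ((((s.2 (q s.1 a) : ℕ) : ℤ) + ε a : ℤ) : ℝ) := by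
          rw [hst.2]
        push_cast at this
        linarith
      · intro x _ hx
        rw [hst.1 x hx, sub_self, zero_smul]
      · simp
    · simp at h
  have hrowY : ∀ s a, ∑ s', C' s a s' ≤ (∑ ω', C s.1 a ω') / c := by
    intro s a
    rw [Fintype.sum_prod_type, sum_div]
    refine sum_le_sum fun ω' _ => ?_
    simp only [hC', ← mul_sum]
    exact mul_le_of_le_one_right (div_nonneg (hC0 _ _ _) hc0.le) (step_count_le _ _ _)
  refine chain_bound hp hK hN (fun s : Ω × (Q → Fin (L + 1)) => μ s.1 / c)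
    (fun s => div_nonneg (hμ0 _) hc0.le) ?_ σ hσ C' ?_ ?_ κ hκ ?_ ?_ _ ?_ f
    (fun j s0 s a => Inv j (f s - f s0) s.1 a) ?_ ?_ t D lam hD0 ?_ hlam0 ?_
  · rw [Fintype.sum_prod_type]
    simp only [sum_const, card_univ, nsmul_eq_mul, ← hc, mul_div_cancel₀ _ hc0.ne', hμ1]
  · intro s a s'
    refine mul_nonneg (div_nonneg (hC0 _ _ _) hc0.le) ?_
    split_ifs <;> norm_num
  · intro s a s'
    simp only [hC', ← hCs s.1 a s'.1]
    rcases (hC0 s.1 a s'.1).eq_or_lt with h | h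
    · simp [← h]
    · rw [hq _ _ _ h, hεσ]
      congr 1
      refine if_congr ⟨Step.symm, fun h' => ?_⟩ rfl rfl
      simpa using h'.symm
  · intro s a
    refine (hrowY s a).trans ?_
    rw [← mul_div_assoc]
    exact div_le_div_of_nonneg_right (hrow _ _) hc0.le
  · intro s
    refine (sum_le_sum fun a _ => hrowY s a).trans ?_
    rw [← sum_div]
    exact div_le_div_of_nonneg_right (hrow' _) hc0.le
  · have e1 : (∑ s, ∑ a, ∑ s', C s a s') * (1 - 1 / ((L : ℝ) + 1)) ≤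
        ∑ s, ∑ a, ∑ s', C' s a s' := by
      rw [Fintype.sum_prod_type, sum_mul]
      refine sum_le_sum fun ω _ => ?_
      rw [sum_comm (s := (univ : Finset (Q → Fin (L + 1)))), sum_mul]
      refine sum_le_sum fun a _ => ?_
      simp only [Fintype.sum_prod_type]
      rw [sum_comm (s := (univ : Finset (Q → Fin (L + 1)))), sum_mul]
      refine sum_le_sum fun ω' _ => ?_
      simp only [hC', ← mul_sum]
      refine le_trans (le_of_eq ?_) (mul_le_mul_of_nonneg_left (step_count_ge (q ω a) (ε a) (hε a))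
        (div_nonneg (hC0 _ _ _) hc0.le))
      rw [← hc]
      field_simp
    have e2 : ∑ s, ∑ a, ∑ s', C s a s' ≤ 1 := (sum_le_sum fun s _ => hrow' s).trans hμ1.le
    have e3 : (0 : ℝ) ≤ 1 / ((L : ℝ) + 1) := by positivity
    have e4 := mul_le_of_le_one_left e3 e2
    linarith
  · intro s a s' h
    obtain ⟨h1, h2⟩ := hpos s a s' h
    rw [h2]
    exact h0 _ _ _ h1
  · intro j s0 s a b s' hI hb h
    obtain ⟨h1, h2⟩ := hpos s b s' h
    have : f s' - f s0 = (f s - f s0) + (ε b : ℝ) • u (q s.1 b) := by rw [← h2]; abel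
    rw [this]
    exact hstep _ _ _ _ _ _ hI hb h1
  · intro s0 s a hI
    exact hD _ _ _ hI
  · intro s a s' h
    rw [(hpos s a s' h).2, hN.smul]
    rcases hε a with h | h <;> simp [h, hlam]

end Crest.Agent.H0140
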