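import Crest.Agent.H0140.Spread

set_option autoImplicit false

open Filter Topology

namespace Crest.Agent.H0140

lemma exists_strictMono_ext (L : ℕ) (k : ℕ → ℕ) (hk : ∀ i j, i < j → j < L → k i < k j) :
    ∃ x : ℕ → ℕ, StrictMono x ∧ ∀ i < L, x i = k i := by
  refine ⟨fun i => if i < L then k i else k (L - 1) + i + 1, fun i j hij => ?_,
    fun i hi => if_pos hi⟩
  simp only
  split_ifs with h1 h2 h2
  · exact hk i j hij h2
  · rcases Nat.lt_or_ge i (L - 1) with h | h
    · have := hk i (L - 1) h (by omega); omega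
    · have : i = L - 1 := by omega
      rw [← this]; omega
  · omega
  · omega

open Classical in
lemma exists_marg {A : Type} [Fintype A] (n : ℕ) (I J : A → Fin n → ℕ)
    (hI : ∀ a, StrictMono (I a)) (hJ : ∀ a, StrictMono (J a)) (η : ℝ) (hη : 0 < η) :
    ∃ (Ω : Type) (_ : Fintype Ω) (μ : Ω → ℝ) (x : Ω → ℕ → ℕ), (∀ ω, 0 ≤ μ ω) ∧ ∑ ω, μ ω = 1 ∧
      (∀ ω, StrictMono (x ω)) ∧ ∀ a (s : Finset (Fin n → ℕ)),
        ∑ q ∈ s, |(∑ ω, if (fun i => x ω (I a i)) = q then μ ω else 0) -
          (∑ ω, if (fun i => x ω (J a i)) = q then μ ω else 0)| ≤ η := by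
  set E := lp (fun _ : A × (Fin n → ℕ) => ℝ) 1 with hE
  set v : (ℕ → ℕ) → E := fun x => ∑ a, (lp.single 1 (a, fun i => x (I a i)) (1 : ℝ) -
    lp.single 1 (a, fun i => x (J a i)) (1 : ℝ)) with hv
  set T : Set E := v '' {x | StrictMono x} with hT
  have hnd : ¬ Disjoint (Metric.ball (0 : E) η) (convexHull ℝ T) := by
    intro hd
    obtain ⟨φ, u, h1, h2⟩ := geometric_hahn_banach_open (convex_ball 0 η) Metric.isOpen_ball
      (convex_convexHull ℝ T) hd
    have hu : 0 < u := by simpa using h1 0 (Metric.mem_ball_self hη)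
    set g : A → (Fin n → ℕ) → ℝ := fun a q => φ (lp.single 1 (a, q) (1 : ℝ)) with hg
    have hgb : ∀ a q, g a q ∈ Set.Icc (-‖φ‖) ‖φ‖ := by
      intro a q
      rw [Set.mem_Icc, ← abs_le, ← Real.norm_eq_abs]
      refine (φ.le_opNorm _).trans ?_
      rw [lp.norm_single one_pos]
      simp
    have hlim : ∀ a, ∃ r, Tendsto (g a) (Vn n) (𝓝 r) := by
      intro a
      obtain ⟨r, -, hr⟩ := (isCompact_Icc (a := -‖φ‖) (b := ‖φ‖)).ultrafilter_le_nhds
        ((Vn n).map (g a)) (by
          rw [Ultrafilter.coe_map, le_principal_iff, mem_map]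
          exact Filter.univ_mem' fun q => hgb a q)
      exact ⟨r, hr⟩
    choose r hr using hlim
    have hφ : ∀ x, φ (v x) = ∑ a, (g a (fun i => x (I a i)) - g a (fun i => x (J a i))) := by
      intro x
      simp only [hv, map_sum, map_sub, hg]
    have ht : Tendsto (fun x => φ (v x)) Winf (𝓝 (∑ a, (r a - r a))) := by
      simp only [hφ]
      refine tendsto_finsetSum _ fun a _ => Tendsto.sub ?_ ?_
      · have := hr a
        rwa [← Winf_marg n (I a) (hI a), Ultrafilter.coe_map, tendsto_map'_iff] at this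
      · have := hr a
        rwa [← Winf_marg n (J a) (hJ a), Ultrafilter.coe_map, tendsto_map'_iff] at this
    simp only [sub_self, Finset.sum_const_zero] at ht
    obtain ⟨L, hL⟩ := ((Finset.univ.image fun ai : A × Fin n => I ai.1 ai.2) ∪
      (Finset.univ.image fun ai : A × Fin n => J ai.1 ai.2)).exists_nat_subset_range
    have hLI : ∀ a i, I a i < L := fun a i => Finset.mem_range.1 (hL (Finset.mem_union_left _
      (Finset.mem_image_of_mem (fun ai : A × Fin n => I ai.1 ai.2) (Finset.mem_univ (a, i)))))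
    have hLJ : ∀ a i, J a i < L := fun a i => Finset.mem_range.1 (hL (Finset.mem_union_right _
      (Finset.mem_image_of_mem (fun ai : A × Fin n => J ai.1 ai.2) (Finset.mem_univ (a, i)))))
    have hev : ∀ᶠ k in (Winf : Filter (ℕ → ℕ)), u ≤ φ (v k) := by
      refine Filter.mem_of_superset (Ultrafilter.mem_coe.2 (Winf_mono L)) fun k hk => ?_
      obtain ⟨x, hx, hxk⟩ := exists_strictMono_ext L k hk
      have : v k = v x := by
        simp only [hv, hxk _ (hLI _ _), hxk _ (hLJ _ _)]
      change u ≤ φ (v k)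
      rw [this]
      exact h2 _ (subset_convexHull ℝ T ⟨x, hx, rfl⟩)
    have := ge_of_tendsto ht hev
    linarith
  obtain ⟨e, he1, he2⟩ := Set.not_disjoint_iff.1 hnd
  obtain ⟨Ω, _, μ, z, h0, h1, hz, hze⟩ := mem_convexHull_iff_exists_fintype.1 he2
  choose x hx hxz using hz
  refine ⟨Ω, inferInstance, μ, x, h0, h1, hx, fun a s => ?_⟩
  rw [mem_ball_zero_iff] at he1
  have e1 := lp.sum_rpow_le_norm_rpow (p := 1) (by simp) e
    (s.map ⟨fun q => (a, q), fun q q' h => (Prod.mk.inj h).2⟩)
  simp only [ENNReal.toReal_one, Real.rpow_one, Finset.sum_map, Function.Embedding.coeFn_mk,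
    Real.norm_eq_abs] at e1
  refine le_trans (le_of_eq (Finset.sum_congr rfl fun q _ => ?_)) (e1.trans he1.le)
  congr 1
  let ev : E →ₗ[ℝ] ℝ :=
    { toFun := fun f => f.1 (a, q)
      map_add' := fun _ _ => rfl
      map_smul' := fun _ _ => rfl }
  have hev : ∀ b q', ev (lp.single 1 (b, q') (1 : ℝ)) = if b = a ∧ q' = q then 1 else 0 := by
    intro b q'
    change (lp.single (E := fun _ : A × (Fin n → ℕ) => ℝ) 1 (b, q') (1 : ℝ)) (a, q) = _
    split_ifs with h
    · rw [h.1, h.2, lp.single_apply_self]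
    · refine lp.single_apply_ne _ _ _ fun h' => h ?_
      simp only [Prod.mk.injEq] at h'
      exact ⟨h'.1.symm, h'.2.symm⟩
  change _ = ev e
  rw [← hze, map_sum, ← Finset.sum_sub_distrib]
  refine Finset.sum_congr rfl fun ω _ => ?_
  rw [← hxz ω, map_smul, hv]
  simp only [map_sum, map_sub, hev, smul_eq_mul]
  rw [Finset.sum_eq_single a]
  · simp only [true_and]
    split_ifs <;> simp
  · intro b _ hb
    simp [hb]
  · simp

end Crest.Agent.H0140
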