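import Crest.Agent.H0140.Spread

set_option autoImplicit false

open Filter Topology

namespace Crest.Agent.H0140

/-- average of `M + 1` consecutive basis vectors starting at `c` -/
noncomputable def avg (M c : ℕ) : V :=
  ((M : ℝ) + 1)⁻¹ • ∑ z ∈ Finset.range (M + 1), Finsupp.single (c + z) (1 : ℝ)

/-- block averaging -/
noncomputable def TT (M : ℕ) : V →ₗ[ℝ] V :=
  Finsupp.linearCombination ℝ fun k => avg M (k * (M + 1))

lemma TT_single (M k : ℕ) (c : ℝ) : TT M (Finsupp.single k c) = c • avg M (k * (M + 1)) := by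
  simp [TT]

lemma Good.avg_le {p K : ℝ} {N : V → ℝ} (h : Good p K N) (M c : ℕ) : N (avg M c) ≤ 1 := by
  have h0 : (0 : ℝ) < (M : ℝ) + 1 := by positivity
  rw [avg, h.smul, abs_of_pos (inv_pos.2 h0), inv_mul_le_iff₀ h0, mul_one]
  refine (h.sum_le _ _).trans ((Finset.sum_le_sum fun z _ => h.single_le _).trans ?_)
  simp

lemma avg_succ_sub (M c : ℕ) : avg M c - avg M (c + 1) =
    ((M : ℝ) + 1)⁻¹ • (Finsupp.single c (1 : ℝ) - Finsupp.single (c + (M + 1)) 1) := by
  rw [avg, avg, ← smul_sub]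
  congr 1
  have e1 := Finset.sum_range_succ' (fun z => (Finsupp.single (c + z) (1 : ℝ) : V)) (M + 1)
  have e2 := Finset.sum_range_succ (fun z => (Finsupp.single (c + z) (1 : ℝ) : V)) (M + 1)
  have e3 : ∑ z ∈ Finset.range (M + 1), (Finsupp.single (c + 1 + z) (1 : ℝ) : V) =
      ∑ z ∈ Finset.range (M + 1), (Finsupp.single (c + (z + 1)) (1 : ℝ) : V) :=
    Finset.sum_congr rfl fun z _ => by rw [show c + 1 + z = c + (z + 1) by omega]
  rw [e3]
  rw [e1] at e2
  simp only [add_zero] at e2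
  rw [sub_eq_sub_iff_add_eq_add, ← e2, add_comm]

lemma Good.avg_sub_le {p K : ℝ} {N : V → ℝ} (h : Good p K N) (M c i : ℕ) :
    N (avg M c - avg M (c + i)) ≤ 2 * i / ((M : ℝ) + 1) := by
  have h0 : (0 : ℝ) < (M : ℝ) + 1 := by positivity
  induction i with
  | zero => simp [h.zero]
  | succ i ih =>
    have e : avg M c - avg M (c + (i + 1)) =
        (avg M c - avg M (c + i)) + (avg M (c + i) - avg M (c + i + 1)) := by
      rw [← add_assoc]; abel
    rw [e]
    refine (h.add_le _ _).trans ?_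
    rw [avg_succ_sub, h.smul, abs_of_pos (inv_pos.2 h0)]
    have e1 := h.sub_le (Finsupp.single (c + i) 1) (Finsupp.single (c + i + (M + 1)) 1)
    have e2 := h.single_le (c + i)
    have e3 := h.single_le (c + i + (M + 1))
    have e4 : ((M : ℝ) + 1)⁻¹ * N (Finsupp.single (c + i) 1 - Finsupp.single (c + i + (M + 1)) 1)
        ≤ ((M : ℝ) + 1)⁻¹ * 2 := by gcongr; linarith
    have e5 : 2 * ((i + 1 : ℕ) : ℝ) / ((M : ℝ) + 1) = 2 * i / ((M : ℝ) + 1) + ((M : ℝ) + 1)⁻¹ * 2 := by
      push_cast; field_simp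
    linarith

lemma mapDomain_div_TT (M : ℕ) (u : V) : Finsupp.mapDomain (fun i => i / (M + 1)) (TT M u) = u := by
  have h0 : (0 : ℝ) < (M : ℝ) + 1 := by positivity
  have : (Finsupp.lmapDomain ℝ ℝ (fun i => i / (M + 1))) ∘ₗ TT M = LinearMap.id := by
    refine Finsupp.lhom_ext' fun k => LinearMap.ext_ring ?_
    simp only [LinearMap.comp_apply, Finsupp.lsingle_apply, TT_single, one_smul, avg, map_smul,
      map_sum, Finsupp.lmapDomain_apply, Finsupp.mapDomain_single, LinearMap.id_apply]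
    have : ∑ z ∈ Finset.range (M + 1), (Finsupp.single ((k * (M + 1) + z) / (M + 1)) (1 : ℝ) : V)
        = ∑ z ∈ Finset.range (M + 1), (Finsupp.single k (1 : ℝ) : V) := by
      refine Finset.sum_congr rfl fun z hz => ?_
      rw [Finset.mem_range] at hz
      rw [mul_comm, Nat.mul_add_div (by omega), Nat.div_eq_of_lt hz, add_zero]
    rw [this, Finset.sum_const, Finset.card_range, ← Nat.cast_smul_eq_nsmul ℝ, smul_smul]
    push_cast
    rw [inv_mul_cancel₀ h0.ne', one_smul]
  exact LinearMap.congr_fun this u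

lemma slide {p K : ℝ} {N : V → ℝ} (h : Good p K N)
    (hs : ∀ s : ℕ → ℕ, StrictMono s → ∀ a, N (Finsupp.mapDomain s a) = N a)
    (φ : ℕ → ℕ) (hφ : Monotone φ) (u : V) (M : ℕ) :
    N (TT M (Finsupp.mapDomain φ u)) ≤
      N u + (∑ i ∈ u.support, |u i| * (2 * i)) / ((M : ℝ) + 1) := by
  have h0 : (0 : ℝ) < (M : ℝ) + 1 := by positivity
  set A : V →ₗ[ℝ] V := ((M : ℝ) + 1)⁻¹ • ∑ y ∈ Finset.range (M + 1),
    Finsupp.lmapDomain ℝ ℝ (fun i => φ i * (M + 1) + i + y) with hA
  have hA1 : N (A u) ≤ N u := by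
    simp only [hA, LinearMap.smul_apply, LinearMap.sum_apply, Finsupp.lmapDomain_apply]
    rw [h.smul, abs_of_pos (inv_pos.2 h0), inv_mul_le_iff₀ h0]
    refine (h.sum_le _ _).trans (le_of_eq ?_)
    rw [Finset.sum_congr rfl fun y _ => hs _ ?_ u]
    · simp
    · intro i j hij
      have := Nat.mul_le_mul_right (M + 1) (hφ hij.le)
      simp only
      omega
  have hA2 : ∀ i, A (Finsupp.single i 1) = avg M (φ i * (M + 1) + i) := by
    intro i
    simp only [hA, LinearMap.smul_apply, LinearMap.sum_apply, Finsupp.lmapDomain_apply,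
      Finsupp.mapDomain_single, avg]
  set B : V →ₗ[ℝ] V := TT M ∘ₗ Finsupp.lmapDomain ℝ ℝ φ - A with hB
  have hB1 : ∀ i, N (B (Finsupp.single i 1)) ≤ 2 * i / ((M : ℝ) + 1) := by
    intro i
    simp only [hB, LinearMap.sub_apply, LinearMap.comp_apply, Finsupp.lmapDomain_apply,
      Finsupp.mapDomain_single, TT_single, one_smul, hA2]
    exact h.avg_sub_le _ _ _
  have hB2 : N (B u) ≤ (∑ i ∈ u.support, |u i| * (2 * i)) / ((M : ℝ) + 1) := by
    conv_lhs => rw [← Finsupp.sum_single u, Finsupp.sum, map_sum]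
    rw [Finset.sum_div]
    refine (h.sum_le _ _).trans (Finset.sum_le_sum fun i _ => ?_)
    have : Finsupp.single i (u i) = u i • (Finsupp.single i (1 : ℝ) : V) := by simp
    rw [this, map_smul, h.smul, mul_div_assoc]
    exact mul_le_mul_of_nonneg_left (hB1 i) (abs_nonneg _)
  have e : TT M (Finsupp.mapDomain φ u) = A u + B u := by
    simp [hB]
  rw [e]
  exact (h.add_le _ _).trans (add_le_add hA1 hB2)

/-- subadditive model: monotone push-forwards are contractions -/
lemma exists_SA {p K θ : ℝ} (hp : 0 ≤ p) {N : V → ℝ} (hN : Good p K N) (hL : Low θ N)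
    (hs : ∀ s : ℕ → ℕ, StrictMono s → ∀ a, N (Finsupp.mapDomain s a) = N a) :
    ∃ N2 : V → ℝ, Good p K N2 ∧ Low θ N2 ∧
      ∀ φ : ℕ → ℕ, Monotone φ → ∀ a, N2 (Finsupp.mapDomain φ a) ≤ N2 a := by
  have hG : ∀ M : ℕ, Good p K (fun a => N (TT M a)) := fun M =>
    hN.comp _ fun i => by rw [TT_single, one_smul]; exact hN.avg_le _ _
  obtain ⟨N2, h1, hlim⟩ := exists_ulim hp (hyperfilter ℕ) _ hG
  refine ⟨N2, h1, fun k a => ge_of_tendsto' (hlim a) fun M => ?_, fun φ hφ u => ?_⟩
  · have := hL (k * (M + 1)) (TT M a)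
    have e : tail k a = tail (k * (M + 1)) (TT M a) := by
      conv_lhs => rw [← mapDomain_div_TT M a]
      rw [tail, tail, lc_mapDomain]
      refine lc_congr fun i _ => ?_
      simp only [Function.comp]
      exact if_congr (Nat.le_div_iff_mul_le (by omega)) rfl rfl
    rwa [e]
  · refine ge_of_tendsto' (hlim u) fun M => ?_
    set u' := TT M u with hu'
    have e : Finsupp.mapDomain φ u = Finsupp.mapDomain (φ ∘ fun i => i / (M + 1)) u' := by
      rw [Finsupp.mapDomain_comp, hu', mapDomain_div_TT]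
    have hm : Monotone (φ ∘ fun i => i / (M + 1)) :=
      hφ.comp fun i j hij => Nat.div_le_div_right hij
    have t1 : Tendsto (fun M' : ℕ => N u' + (∑ i ∈ u'.support, |u' i| * (2 * i)) / ((M' : ℝ) + 1))
        (hyperfilter ℕ) (𝓝 (N u' + 0)) := by
      refine (Tendsto.const_add _ ?_).mono_left hyper_le
      exact tendsto_const_nhds.div_atTop
        (tendsto_atTop_add_const_right _ 1 tendsto_natCast_atTop_atTop)
    rw [add_zero] at t1
    refine le_of_tendsto_of_tendsto' (hlim _) t1 fun M' => ?_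
    rw [e]
    exact slide hN hs _ hm u' M'

end Crest.Agent.H0140
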