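import Crest.Agent.H0140.Pattern
import Crest.Agent.H0140.Couple
import Crest.Agent.H0140.Lift
import Crest.Agent.H0140.Marg
import Crest.Agent.H0140.SA

set_option autoImplicit false

open Finset

namespace Crest.Agent.H0140

noncomputable def altv (r : ℕ) : V :=
  ∑ i ∈ range (2 * r), (-1 : ℝ) ^ i • Finsupp.single (i + 1) (1 : ℝ)

lemma coord_le {θ : ℝ} {N : V → ℝ} (hθ : 0 < θ) (hL : Low θ N) (y : V) (l : ℕ) :
    |y l| ≤ 2 * N y / θ := by
  have e : y l = tail l y - tail (l + 1) y := by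
    rw [tail, tail, lc_sub, ← lc_apply]
    refine lc_congr fun i _ => ?_
    split_ifs <;> first | omega | simp
  have h1 := hL l y
  have h2 := hL (l + 1) y
  rw [le_div_iff₀ hθ, e]
  have h3 := mul_le_mul_of_nonneg_left (abs_sub (tail l y) (tail (l + 1) y)) hθ.le
  linarith

lemma altv_apply (r l : ℕ) :
    altv r l = if 1 ≤ l ∧ l ≤ 2 * r then (-1 : ℝ) ^ (l - 1) else 0 := by
  simp only [altv, Finsupp.coe_finsetSum, Finset.sum_apply, Finsupp.coe_smul, Pi.smul_apply,
    Finsupp.single_apply, smul_eq_mul, mul_ite, mul_one, mul_zero]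
  split_ifs with h
  · rw [sum_eq_single (l - 1)]
    · rw [if_pos (by omega)]
    · intro i _ hi; rw [if_neg (by omega)]
    · intro hi; exact absurd (mem_range.2 (by omega)) hi
  · refine sum_eq_zero fun i hi => ?_
    rw [mem_range] at hi
    rw [if_neg (by omega)]

lemma altv_pos {θ : ℝ} {N : V → ℝ} (hθ : 0 < θ) (hL : Low θ N) {r : ℕ} (hr : 1 ≤ r) :
    0 < N (altv r) := by
  have h := coord_le hθ hL (altv r) 1
  rw [altv_apply, if_pos (by omega)] at h
  simp only [tsub_self, pow_zero, abs_one] at h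
  rw [le_div_iff₀ hθ] at h
  linarith

lemma final_bound {p K θ : ℝ} {N : V → ℝ} (hN : Good p K N) (hθ : 0 < θ) (hL : Low θ N)
    (hc : ∀ φ : ℕ → ℕ, Monotone φ → ∀ a, N (Finsupp.mapDomain φ a) ≤ N a)
    {m t r o : ℕ} {D : V} {q : Fin (m + 1) → ℕ} (hq : StrictMono q) (h : InvT t D q o)
    (hm : 4 * t + 2 * r + 2 ≤ m) : (t + 1) * N (altv r) / (1 + 4 / θ) ≤ N D := by
  obtain ⟨β, h⟩ := h
  obtain ⟨c0, hc0, hc1, hc2⟩ : ∃ c0, 2 * t ≤ c0 ∧ c0 ≤ 2 * t + 1 ∧ ¬ Even (c0 + 1 + o) := by
    by_cases he : Even (2 * t + 1 + o)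
    · refine ⟨2 * t + 1, by omega, le_rfl, ?_⟩
      rw [Nat.even_iff] at *; omega
    · exact ⟨2 * t, le_rfl, by omega, he⟩
  have hz : ∀ l, ∃ k, l ≤ 2 * r → St q (c0 + l) k ∧
      head k D = (if Even l then 0 else (t + 1 : ℝ)) - β := by
    intro l
    by_cases hl : l ≤ 2 * r
    · obtain ⟨h1, h2⟩ := h (c0 + l) (by omega) (by omega)
      by_cases he : Even l
      · obtain ⟨k, hk1, hk2⟩ := h2 (by rw [Nat.even_iff] at *; omega)
        exact ⟨k, fun _ => ⟨hk1, by rw [hk2, if_pos he, zero_sub]⟩⟩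
      · have hk : St q (c0 + l) (ext q (c0 + l + 1)) := ⟨ext_lt hq (by omega) (by omega), le_rfl⟩
        exact ⟨_, fun _ => ⟨hk, by rw [h1 (by rw [Nat.even_iff] at *; omega) _ hk, if_neg he]⟩⟩
    · exact ⟨0, fun h => absurd h hl⟩
  choose z hz using hz
  have hzm : ∀ l l', l < l' → l' ≤ 2 * r → z l < z l' := by
    intro l l' h1 h2
    have e1 := (hz l (by omega)).1.2
    have e2 := (hz l' h2).1.1
    have e3 := ext_mono hq (show c0 + l + 1 ≤ c0 + l' by omega)
    omega
  set φ : ℕ → ℕ := fun i => #{l ∈ range (2 * r + 1) | z l ≤ i} with hφ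
  have hφm : Monotone φ := fun i j hij => card_le_card fun l hl => by
    rw [mem_filter] at *
    exact ⟨hl.1, hl.2.trans hij⟩
  have hφl : ∀ i l, l ≤ 2 * r → (φ i ≤ l ↔ i < z l) := by
    intro i l hl
    constructor
    · intro h
      by_contra hcon
      have : range (l + 1) ⊆ {l ∈ range (2 * r + 1) | z l ≤ i} := by
        intro l' hl'
        rw [mem_range] at hl'
        rw [mem_filter, mem_range]
        refine ⟨by omega, ?_⟩
        rcases Nat.lt_or_ge l' l with h1 | h1
        · have := hzm l' l h1 hl; omega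
        · have : l' = l := by omega
          rw [this]; omega
      have := card_le_card this
      rw [card_range] at this
      simp only [hφ] at h
      omega
    · intro h
      have : {l ∈ range (2 * r + 1) | z l ≤ i} ⊆ range l := by
        intro l' hl'
        rw [mem_filter, mem_range] at hl'
        rw [mem_range]
        by_contra hcon
        rcases Nat.lt_or_ge l l' with h1 | h1
        · have := hzm l l' h1 (by omega); omega
        · have : l' = l := by omega
          rw [this] at hl'; omega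
      have := card_le_card this
      rwa [card_range] at this
  have hφb : ∀ i, φ i ≤ 2 * r + 1 := fun i =>
    (card_le_card (filter_subset _ _)).trans (card_range _).le
  set y := Finsupp.mapDomain φ D with hy
  have hy1 : ∀ l, l < 2 * r → y (l + 1) = (t + 1) * (-1) ^ l := by
    intro l hl
    have e : y (l + 1) = head (z (l + 1)) D - head (z l) D := by
      rw [← lc_apply, hy, lc_mapDomain, head, head, lc_sub]
      refine lc_congr fun i _ => ?_
      have e1 := hφl i l (by omega)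
      have e2 := hφl i (l + 1) (by omega)
      simp only [Function.comp]
      split_ifs <;> first | omega | simp
    rw [e, (hz (l + 1) (by omega)).2, (hz l (by omega)).2]
    by_cases he : Even l
    · rw [if_neg (by rwa [Nat.even_add_one, not_not]), if_pos he, he.neg_one_pow]; ring
    · rw [if_pos (by rwa [Nat.even_add_one]), if_neg he, (Nat.not_even_iff_odd.1 he).neg_one_pow]
      ring
  have hy2 : ∀ l, 2 * r + 1 < l → y l = 0 := by
    intro l hl
    rw [← lc_apply, hy, lc_mapDomain, lc_eq_sum]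
    refine sum_eq_zero fun i _ => ?_
    have := hφb i
    simp only [Function.comp]
    rw [if_neg (by omega), mul_zero]
  have hdec : (t + 1 : ℝ) • altv r =
      y - Finsupp.single 0 (y 0) - Finsupp.single (2 * r + 1) (y (2 * r + 1)) := by
    ext l
    simp only [Finsupp.coe_smul, Pi.smul_apply, smul_eq_mul, Finsupp.coe_sub, Pi.sub_apply,
      Finsupp.single_apply, altv_apply]
    rcases Nat.eq_zero_or_pos l with rfl | hl
    · simp
    · obtain ⟨l, rfl⟩ : ∃ l', l = l' + 1 := ⟨l - 1, by omega⟩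
      rcases lt_trichotomy l (2 * r) with h1 | h1 | h1
      · rw [if_pos (by omega), if_neg (by omega), if_neg (by omega), hy1 l h1]; simp
      · rw [if_neg (by omega), if_neg (by omega), if_pos (by omega), h1]; simp
      · rw [if_neg (by omega), if_neg (by omega), if_neg (by omega), hy2 _ (by omega)]; simp
  have e1 : (t + 1 : ℝ) * N (altv r) ≤ N y + 2 * N y / θ + 2 * N y / θ := by
    have := hN.smul (t + 1 : ℝ) (altv r)
    rw [abs_of_nonneg (by positivity)] at this
    rw [← this, hdec]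
    refine (hN.sub_le _ _).trans (add_le_add ((hN.sub_le _ _).trans (add_le_add le_rfl ?_)) ?_)
    · exact (hN.single_le' _ _).trans (coord_le hθ hL y _)
    · exact (hN.single_le' _ _).trans (coord_le hθ hL y _)
  have e2 := hc φ hφm D
  rw [div_le_iff₀ (by positivity)]
  have e3 : N y + 2 * N y / θ + 2 * N y / θ = N y * (1 + 4 / θ) := by ring
  have e4 := mul_le_mul_of_nonneg_right e2 (show 0 ≤ 1 + 4 / θ by positivity)
  linarith

lemma step_bound {p K : ℝ} {N : V → ℝ} (hN : Good p K N)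
    (hc : ∀ φ : ℕ → ℕ, Monotone φ → ∀ a, N (Finsupp.mapDomain φ a) ≤ N a)
    {m r : ℕ} {q : Fin (m + 1) → ℕ} (hq : StrictMono q) (hm : m + 1 = 2 * r + 2 * r) :
    N (uvec q) ≤ 2 * N (altv r) := by
  have key : ∀ off, Finsupp.mapDomain (fun i => ext q (off + (i - 1))) (altv r) =
      ∑ i ∈ range (2 * r), (-1 : ℝ) ^ i • Finsupp.single (ext q (off + i)) (1 : ℝ) := by
    intro off
    rw [← Finsupp.lmapDomain_apply ℝ ℝ, altv, map_sum]
    simp only [map_smul, Finsupp.lmapDomain_apply, Finsupp.mapDomain_single, Nat.add_sub_cancel]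
  have hmono : ∀ off, Monotone (fun i => ext q (off + (i - 1))) := fun off i j hij =>
    ext_mono hq (by omega)
  have e : uvec q = Finsupp.mapDomain (fun i => ext q (0 + (i - 1))) (altv r) +
      Finsupp.mapDomain (fun i => ext q (2 * r + (i - 1))) (altv r) := by
    rw [key, key, uvec, hm, sum_range_add]
    simp [pow_add]
  rw [e]
  have h1 := hc _ (hmono 0) (altv r)
  have h2 := hc _ (hmono (2 * r)) (altv r)
  exact (hN.add_le _ _).trans (by linarith)

open Classical in
lemma main_ineq {p K θ : ℝ} (hp : 0 < p) (hK : 0 ≤ K) {N : V → ℝ} (hN : Good p K N) (hθ : 0 < θ)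
    (hL : Low θ N) (hc : ∀ φ : ℕ → ℕ, Monotone φ → ∀ a, N (Finsupp.mapDomain φ a) ≤ N a)
    (t : ℕ) : (1 / 2) * ((t + 1) / (1 + 4 / θ)) ^ p ≤ K ^ p * (t + 1) * 2 ^ p := by
  set r := 2 * t + 2 with hr
  set m := 8 * t + 7 with hm
  set d := 3 * t + 3 with hd
  haveI : Nonempty (Lab d) := ⟨(⟨0, by omega⟩, true)⟩
  have ht0 : (0 : ℝ) < (t : ℝ) + 1 := by positivity
  obtain ⟨Ω, _, μ, x, hμ0, hμ1, hx, hmarg⟩ := exists_marg (A := Lab d) (m + 1) (idx m)
    (fun a => idx m (flipL a)) (idx_strictMono m) (fun a => idx_strictMono m _)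
    (1 / (6 * (t + 1))) (by positivity)
  set q : Ω → Lab d → Fin (m + 1) → ℕ := fun ω a i => x ω (idx m a i) with hq
  have hqm : ∀ ω a, StrictMono (q ω a) := fun ω a => (hx ω).comp (idx_strictMono m a)
  obtain ⟨C, hC0, hCs, hrow, htot, hCq⟩ := exists_coupling μ hμ0 hμ1 flipL (flipL_invol d) q _
    (fun a s => by convert hmarg a s)
  have hcard : (Fintype.card (Lab d) : ℝ) = 6 * (t + 1) := by
    simp only [Fintype.card_prod, Fintype.card_fin, Fintype.card_bool, hd]
    push_cast; ring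
  have hrow' : ∀ s, ∑ a, ∑ s', C s a s' ≤ μ s := by
    intro s
    refine (sum_le_sum fun a _ => hrow s a).trans (le_of_eq ?_)
    rw [sum_const, card_univ, nsmul_eq_mul, hcard]
    field_simp
  set Qs : Finset (Fin (m + 1) → ℕ) := univ.image fun s : Ω × Lab d => q s.1 s.2 with hQs
  have hlam := altv_pos hθ hL (show 1 ≤ r by omega)
  have main := cocycle_bound (Q := Qs) hp hK hN μ hμ0 hμ1 flipL (flipL_invol d) C hC0 hCs _
    (by positivity) hrow hrow' _ htot
    (fun ω a => ⟨q ω a, mem_image_of_mem (fun s : Ω × Lab d => q s.1 s.2) (mem_univ (ω, a))⟩)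
    (fun ω a ω' h => Subtype.ext (hCq ω a ω' h)) epsL epsL_cases epsL_flip
    (fun y => uvec y.1) (fun j D ω a => InvT j D (q ω (flipL a)) (oL a))
    (fun ω a ω' h => by
      rw [hCq ω a ω' h]
      exact InvT.base (hqm ω a) a)
    (fun j D ω a b ω' hI hb h => by
      rw [hCq ω b ω' h]
      exact InvT.step (hx ω) hb (oL_flip a) hI)
    t ((t + 1) * N (altv r) / (1 + 4 / θ)) (2 * N (altv r)) (by positivity)
    (fun D ω a hI => final_bound hN hθ hL hc (hqm ω _) hI (by omega)) (by positivity)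
    (fun y => by
      obtain ⟨y, hy⟩ := y
      obtain ⟨s, -, rfl⟩ := mem_image.1 hy
      exact step_bound hN hc (hqm _ _) (by omega)) (6 * t + 5)
  rw [hcard] at main
  have e1 : (1 - ((t : ℝ) + 1) * (1 / (6 * ((t : ℝ) + 1)) + 1 / (((6 * t + 5 : ℕ) : ℝ) + 1) +
      1 / (6 * ((t : ℝ) + 1)))) = 1 / 2 := by
    push_cast
    rw [show (6 * (t : ℝ) + 5 + 1) = 6 * (t + 1) by ring]
    field_simp
    ring
  rw [e1, mul_div_right_comm, Real.mul_rpow (by positivity) hlam.le,
    Real.mul_rpow (by positivity) hlam.le] at main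
  have e2 : 0 < N (altv r) ^ p := Real.rpow_pos_of_pos hlam p
  refine le_of_mul_le_mul_right ?_ e2
  linarith

lemma no_good {p K θ : ℝ} (hp : 1 < p) (hK : 0 ≤ K) {N : V → ℝ} (hN : Good p K N) (hθ : 0 < θ)
    (hL : Low θ N) : False := by
  have hp0 : 0 < p := by linarith
  obtain ⟨N1, h1, h2, h3⟩ := exists_spread hp0.le hN hL
  obtain ⟨N2, g1, g2, g3⟩ := exists_SA hp0.le h1 h2 h3
  have key := main_ineq hp0 hK g1 hθ g2 g3
  set B := 1 + 4 / θ with hB
  have hB0 : 0 < B := by positivity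
  have hb : ∀ t : ℕ, ((t : ℝ) + 1) ^ (p - 1) ≤ 2 * K ^ p * 2 ^ p * B ^ p := by
    intro t
    have ht0 : (0 : ℝ) < (t : ℝ) + 1 := by positivity
    have h := key t
    rw [Real.div_rpow ht0.le hB0.le] at h
    have hBp : 0 < B ^ p := Real.rpow_pos_of_pos hB0 p
    rw [Real.rpow_sub_one ht0.ne', div_le_iff₀ ht0]
    rw [← mul_div_assoc, div_le_iff₀ hBp] at h
    linarith
  have ht : Filter.Tendsto (fun t : ℕ => ((t : ℝ) + 1) ^ (p - 1)) Filter.atTop Filter.atTop :=
    (tendsto_rpow_atTop (by linarith)).comp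
      (Filter.tendsto_atTop_add_const_right _ 1 tendsto_natCast_atTop_atTop)
  obtain ⟨t, ht⟩ := (ht.eventually_gt_atTop (2 * K ^ p * 2 ^ p * B ^ p)).exists
  exact absurd (hb t) (not_le.2 ht)

end Crest.Agent.H0140
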