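import Crest.Agent.H0140.Renorm

set_option autoImplicit false

open Filter Topology

namespace Crest.Agent.H0140

variable {X : Type*} [NormedAddCommGroup X] [NormedSpace ℝ X]

lemma exists_good_of_fam {p K δ : ℝ} (hp : 1 ≤ p) (hX : Crest.AnalysisR.HasMarkovType X p K)
    {n : ℕ} {x : X} (h : Fam δ n x) :
    ∃ N : V → ℝ, Good p K N ∧ ∀ k < n, ∀ a, δ / 2 * |tail k a| ≤ N a := by
  obtain ⟨Ω, _, π, M, h0, h1, h2, -, h4⟩ := h
  have hp0 : 0 < p := by linarith
  set T : Ω → V →ₗ[ℝ] X := fun ω => Finsupp.linearCombination ℝ (M ω) with hT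
  have hnn : ∀ a : V, 0 ≤ ∑ ω, π ω * ‖T ω a‖ ^ p := fun a =>
    Finset.sum_nonneg fun ω _ => mul_nonneg (h0 ω) (Real.rpow_nonneg (norm_nonneg _) _)
  have hrw : ∀ (ω : Ω) (r : ℝ), 0 ≤ r → π ω * r ^ p = |π ω ^ (1 / p) * r| ^ p := by
    intro ω r hr
    rw [abs_of_nonneg (mul_nonneg (Real.rpow_nonneg (h0 ω) _) hr),
      Real.mul_rpow (Real.rpow_nonneg (h0 ω) _) hr, ← Real.rpow_mul (h0 ω),
      one_div_mul_cancel hp0.ne', Real.rpow_one]
  refine ⟨fun a => (∑ ω, π ω * ‖T ω a‖ ^ p) ^ (1 / p), ⟨?_, ?_, ?_, ?_⟩, ?_⟩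
  · intro a b
    have e := Real.Lp_add_le Finset.univ (fun ω => π ω ^ (1 / p) * ‖T ω a‖)
      (fun ω => π ω ^ (1 / p) * ‖T ω b‖) hp
    simp only [← mul_add] at e
    simp only [← hrw _ _ (norm_nonneg _), ← hrw _ _ (add_nonneg (norm_nonneg _) (norm_nonneg _))]
      at e
    refine le_trans (Real.rpow_le_rpow (hnn _) (Finset.sum_le_sum fun ω _ => ?_) (by positivity)) e
    refine mul_le_mul_of_nonneg_left (Real.rpow_le_rpow (norm_nonneg _) ?_ hp0.le) (h0 ω)
    rw [map_add]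
    exact norm_add_le _ _
  · intro c a
    have : ∑ ω, π ω * ‖T ω (c • a)‖ ^ p = |c| ^ p * ∑ ω, π ω * ‖T ω a‖ ^ p := by
      rw [Finset.mul_sum]
      refine Finset.sum_congr rfl fun ω _ => ?_
      rw [map_smul, norm_smul, Real.mul_rpow (norm_nonneg _) (norm_nonneg _), Real.norm_eq_abs]
      ring
    rw [this, Real.mul_rpow (Real.rpow_nonneg (abs_nonneg c) _) (hnn a),
      ← Real.rpow_mul (abs_nonneg c), mul_one_div_cancel hp0.ne', Real.rpow_one]
  · intro i
    refine Real.rpow_le_one (hnn _) ?_ (by positivity)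
    refine le_trans (Finset.sum_le_sum fun ω _ => mul_le_of_le_one_right (h0 ω) ?_) h1.le
    refine Real.rpow_le_one (norm_nonneg _) ?_ hp0.le
    simpa [hT] using h2 ω i
  · intro S _ _ w P g1 g2 g3 g4 g5 f t ht
    have hN : ∀ a : V, ((∑ ω, π ω * ‖T ω a‖ ^ p) ^ (1 / p)) ^ p = ∑ ω, π ω * ‖T ω a‖ ^ p := by
      intro a
      rw [← Real.rpow_mul (hnn a), one_div_mul_cancel hp0.ne', Real.rpow_one]
    simp only [hN]
    have key : ∀ Q : S → S → ℝ, ∑ i, ∑ j, Q i j * ∑ ω, π ω * ‖T ω (f j - f i)‖ ^ p =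
        ∑ ω, π ω * ∑ i, ∑ j, Q i j * ‖T ω (f j) - T ω (f i)‖ ^ p := by
      intro Q
      simp only [Finset.mul_sum, map_sub]
      rw [Finset.sum_comm (s := (Finset.univ : Finset Ω))]
      refine Finset.sum_congr rfl fun i _ => ?_
      rw [Finset.sum_comm]
      refine Finset.sum_congr rfl fun j _ => Finset.sum_congr rfl fun ω _ => by ring
    rw [key (fun i j => w i * (P ^ t) i j), key (fun i j => w i * P i j), Finset.mul_sum]
    refine Finset.sum_le_sum fun ω _ => ?_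
    have := mul_le_mul_of_nonneg_left (hX S w P g1 g2 g3 g4 g5 (fun s => T ω (f s)) t ht) (h0 ω)
    linarith
  · intro k hk a
    obtain ⟨L, hL⟩ := a.support.exists_nat_subset_range
    have e1 := h4 k hk L a 0
    have e2 : tail k a = ∑ i ∈ Finset.range L, if k ≤ i then a i else 0 := by
      rw [tail, lc_eq_sum]
      simp only [mul_ite, mul_one, mul_zero]
      refine Finset.sum_subset hL fun i _ hi => ?_
      simp [Finsupp.notMem_support_iff.1 hi]
    have e3 : ∀ ω, T ω a = ∑ i ∈ Finset.range L, a i • M ω i := by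
      intro ω
      simp only [hT, Finsupp.linearCombination_apply, Finsupp.sum]
      refine Finset.sum_subset hL fun i _ hi => ?_
      simp [Finsupp.notMem_support_iff.1 hi]
    simp only [zero_add, ← e2, ← e3] at e1
    exact e1.trans (Real.arith_mean_le_rpow_mean _ _ _ (fun ω _ => h0 ω) h1
      (fun ω _ => norm_nonneg _) hp)

lemma exists_good_low {p K δ : ℝ} (hp : 1 ≤ p) (hX : Crest.AnalysisR.HasMarkovType X p K)
    (h : ∀ n, ∃ x : X, Fam δ n x) : ∃ N : V → ℝ, Good p K N ∧ Low (δ / 2) N := by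
  have h' : ∀ n : ℕ, ∃ N : V → ℝ, Good p K N ∧ ∀ k < n, ∀ a, δ / 2 * |tail k a| ≤ N a := by
    intro n
    obtain ⟨x, hx⟩ := h n
    exact exists_good_of_fam hp hX hx
  choose Ns h1 h2 using h'
  obtain ⟨N, hN, hlim⟩ := exists_ulim (by linarith) (hyperfilter ℕ) Ns h1
  refine ⟨N, hN, fun k a => ge_of_tendsto (hlim a) ?_⟩
  have : ∀ᶠ n in atTop, k < n := eventually_gt_atTop k
  have h3 : (hyperfilter ℕ : Filter ℕ) ≤ atTop := by
    rw [← Nat.cofinite_eq_atTop]; exact hyperfilter_le_cofinite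
  exact (this.filter_mono h3).mono fun n hn => h2 n k hn a

end Crest.Agent.H0140
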