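import Crest.Agent.H0140.Basic

set_option autoImplicit false

open Finset

namespace Crest.Agent.H0140

/-- extension of a tuple to a function on the naturals -/
def ext {m : ℕ} (q : Fin (m + 1) → ℕ) (j : ℕ) : ℕ := q ⟨min j m, by omega⟩

lemma ext_mono {m : ℕ} {q : Fin (m + 1) → ℕ} (hq : StrictMono q) : Monotone (ext q) :=
  fun i j hij => hq.monotone (by simp only [Fin.mk_le_mk]; omega)

lemma ext_lt {m : ℕ} {q : Fin (m + 1) → ℕ} (hq : StrictMono q) {i j : ℕ} (hij : i < j)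
    (hj : j ≤ m) : ext q i < ext q j := hq (by simp only [Fin.mk_lt_mk]; omega)

/-- alternating vector of a tuple -/
noncomputable def uvec {m : ℕ} (q : Fin (m + 1) → ℕ) : V :=
  ∑ j ∈ range (m + 1), (-1 : ℝ) ^ j • Finsupp.single (ext q j) (1 : ℝ)

def St {m : ℕ} (q : Fin (m + 1) → ℕ) (c k : ℕ) : Prop := ext q c < k ∧ k ≤ ext q (c + 1)

lemma head_uvec {m : ℕ} {q : Fin (m + 1) → ℕ} (hq : StrictMono q) {c k : ℕ} (hc : c + 1 ≤ m)
    (h : St q c k) : head k (uvec q) = if Even c then 1 else 0 := by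
  simp only [uvec, map_sum, map_smul, head, lc_single, smul_eq_mul, one_mul]
  have e1 : ∑ j ∈ range (m + 1), (-1 : ℝ) ^ j * (if ext q j < k then 1 else 0) =
      ∑ j ∈ range (c + 1), (-1 : ℝ) ^ j := by
    rw [← sum_subset (range_subset_range.2 (show c + 1 ≤ m + 1 by omega))]
    · refine sum_congr rfl fun j hj => ?_
      have := ext_mono hq (show j ≤ c by simpa [Nat.lt_succ_iff] using hj)
      rw [if_pos (by have := h.1; omega), mul_one]
    · intro j _ hj
      have := ext_mono hq (show c + 1 ≤ j by simpa using hj)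
      rw [if_neg (by have := h.2; omega), mul_zero]
  rw [e1, neg_one_geom_sum]
  by_cases hc : Even c <;> simp [hc, Nat.even_add_one]

/-- labels -/
abbrev Lab (d : ℕ) : Type := Fin d × Bool

def flipL {d : ℕ} (a : Lab d) : Lab d := (a.1, !a.2)
def oL {d : ℕ} (a : Lab d) : ℕ := if a.2 then 1 else 0
def rankL {d : ℕ} (a : Lab d) : ℕ := if a.2 then a.1 else d + a.1
def epsL {d : ℕ} (a : Lab d) : ℤ := if a.2 then 1 else -1
def PP (d ρ J : ℕ) : ℕ := 4 * d * (J / 2) + 2 * ρ + J % 2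
def idx {d : ℕ} (m : ℕ) (a : Lab d) (j : Fin (m + 1)) : ℕ := PP d (rankL a) (j + 1 + oL a)

lemma flipL_invol (d : ℕ) : Function.Involutive (flipL (d := d)) := fun a => by simp [flipL]

lemma rankL_lt {d : ℕ} (a : Lab d) : rankL a < 2 * d := by
  have := a.1.2
  unfold rankL
  split_ifs <;> omega

lemma rankL_inj {d : ℕ} {a b : Lab d} (h : rankL a = rankL b) : a = b := by
  obtain ⟨i, s⟩ := a
  obtain ⟨j, t⟩ := b
  have := i.2
  have := j.2
  cases s <;> cases t <;> simp only [rankL, Bool.false_eq_true, if_true, if_false] at h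
  · rw [Fin.ext (show (i : ℕ) = j by omega)]
  · omega
  · omega
  · rw [Fin.ext h]

lemma oL_flip {d : ℕ} (a : Lab d) : oL (flipL a) + oL a = 1 := by
  obtain ⟨i, s⟩ := a
  cases s <;> simp [oL, flipL]

lemma oL_le {d : ℕ} (a : Lab d) : oL a ≤ 1 := by have := oL_flip a; omega

lemma epsL_flip {d : ℕ} (a : Lab d) : epsL (flipL a) = -epsL a := by
  obtain ⟨i, s⟩ := a
  cases s <;> simp [epsL, flipL]

lemma epsL_cases {d : ℕ} (a : Lab d) : epsL a = 1 ∨ epsL a = -1 := by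
  obtain ⟨i, s⟩ := a
  cases s <;> simp [epsL]

lemma PP_even (d ρ l : ℕ) : PP d ρ (2 * l) = 4 * d * l + 2 * ρ := by
  simp [PP]

lemma PP_odd (d ρ l : ℕ) : PP d ρ (2 * l + 1) = 4 * d * l + 2 * ρ + 1 := by
  unfold PP
  rw [show (2 * l + 1) / 2 = l by omega, show (2 * l + 1) % 2 = 1 by omega]

lemma PP_strictMono {d : ℕ} (hd : 0 < d) (ρ : ℕ) : StrictMono (PP d ρ) := by
  refine strictMono_nat_of_lt_succ fun J => ?_
  rcases Nat.even_or_odd' J with ⟨l, rfl | rfl⟩
  · rw [PP_even, PP_odd]; omega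
  · rw [PP_odd, show 2 * l + 1 + 1 = 2 * (l + 1) by ring, PP_even, Nat.mul_succ]; omega

lemma idx_strictMono {d : ℕ} (m : ℕ) (a : Lab d) : StrictMono (idx m a) := fun i j hij =>
  PP_strictMono a.1.pos _ (by have : (i : ℕ) < j := hij; omega)

lemma PP_nest {d ρ ρ' J J' : ℕ} (hρ : ρ < 2 * d) (hρ' : ρ' < 2 * d) (hJ : Even J)
    (h : (ρ' < ρ ∧ J' = J + 1) ∨ (ρ < ρ' ∧ J' + 1 = J)) :
    PP d ρ' J' ≤ PP d ρ J ∧ PP d ρ (J + 1) ≤ PP d ρ' (J' + 1) := by
  obtain ⟨l, hl⟩ := hJ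
  rcases h with ⟨h1, h2⟩ | ⟨h1, h2⟩
  · have e1 : J = 2 * l := by omega
    have e2 : J' = 2 * l + 1 := by omega
    rw [e1, e2, show 2 * l + 1 + 1 = 2 * (l + 1) by ring]
    simp only [PP_even, PP_odd]
    simp only [Nat.mul_succ]
    omega
  · obtain ⟨l', rfl⟩ : ∃ l', l = l' + 1 := ⟨l - 1, by omega⟩
    have e1 : J = 2 * (l' + 1) := by omega
    have e2 : J' = 2 * l' + 1 := by omega
    rw [e1, e2, show 2 * l' + 1 + 1 = 2 * (l' + 1) by ring]
    simp only [PP_even, PP_odd]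
    simp only [Nat.mul_succ]
    omega

lemma ext_idx {d m : ℕ} (x : ℕ → ℕ) (a : Lab d) {c : ℕ} (hc : c ≤ m) :
    ext (fun i => x (idx m a i)) c = x (PP d (rankL a) (c + 1 + oL a)) := by
  simp [ext, idx, min_eq_left hc]

lemma St_nest {d m : ℕ} {x : ℕ → ℕ} (hx : StrictMono x) {a b : Lab d} {c c' k : ℕ}
    (hc : c + 1 ≤ m) (hc' : c' + 1 ≤ m) (hJ : Even (c + 1 + oL b))
    (h : (rankL a < rankL b ∧ c' + 1 + oL a = c + 1 + oL b + 1) ∨
      (rankL b < rankL a ∧ c' + 1 + oL a + 1 = c + 1 + oL b))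
    (hS : St (fun i : Fin (m + 1) => x (idx m b i)) c k) :
    St (fun i : Fin (m + 1) => x (idx m a i)) c' k := by
  obtain ⟨h1, h2⟩ := PP_nest (rankL_lt b) (rankL_lt a) hJ h
  unfold St at *
  rw [ext_idx x _ (by omega), ext_idx x _ (by omega)] at *
  have e1 := hx.monotone h1
  have e2 := hx.monotone h2
  rw [show c + 1 + 1 + oL b = c + 1 + oL b + 1 by ring] at hS
  rw [show c' + 1 + 1 + oL a = c' + 1 + oL a + 1 by ring]
  omega

lemma edge_head {d m : ℕ} {q : Fin (m + 1) → ℕ} (hq : StrictMono q) (a : Lab d) {c k : ℕ}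
    (hc : c + 1 ≤ m) (h : St q c k) :
    head k ((epsL a : ℝ) • uvec q) = (if Even (c + 1 + oL a) then 1 else 0) - (1 - oL a) := by
  rw [map_smul, head_uvec hq hc h]
  obtain ⟨i, s⟩ := a
  by_cases he : Even c <;> cases s <;> simp [epsL, oL, he, Nat.even_add_one]

/-- the invariant carried along a non-backtracking path -/
def InvT {m : ℕ} (j : ℕ) (D : V) (q : Fin (m + 1) → ℕ) (o : ℕ) : Prop :=
  ∃ β : ℝ, ∀ c, 2 * j ≤ c → c + 2 * j + 1 ≤ m →
    (Even (c + 1 + o) → ∀ k, St q c k → head k D = j + 1 - β) ∧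
    (¬ Even (c + 1 + o) → ∃ k, St q c k ∧ head k D = -β)

lemma InvT.base {d m : ℕ} {q : Fin (m + 1) → ℕ} (hq : StrictMono q) (a : Lab d) :
    InvT 0 ((epsL a : ℝ) • uvec q) q (oL a) := by
  refine ⟨1 - oL a, fun c _ hc => ⟨fun he k hk => ?_, fun he => ?_⟩⟩
  · rw [edge_head hq a (by omega) hk, if_pos he]; simp
  · have hk : St q c (ext q (c + 1)) := ⟨ext_lt hq (by omega) (by omega), le_rfl⟩
    refine ⟨_, hk, ?_⟩
    rw [edge_head hq a (by omega) hk, if_neg he]; simp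

lemma InvT.step {d m : ℕ} {x : ℕ → ℕ} (hx : StrictMono x) {a b : Lab d} (hab : b ≠ a) {o j : ℕ}
    (ho : oL a + o = 1) {D : V} (h : InvT j D (fun i : Fin (m + 1) => x (idx m a i)) o) :
    InvT (j + 1) (D + (epsL b : ℝ) • uvec (fun i : Fin (m + 1) => x (idx m b i)))
      (fun i : Fin (m + 1) => x (idx m b i)) (oL b) := by
  obtain ⟨β, h⟩ := h
  have hq : StrictMono (fun i : Fin (m + 1) => x (idx m b i)) := hx.comp (idx_strictMono m b)
  have hr : rankL a ≠ rankL b := fun h => hab (rankL_inj h).symm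
  have ha := oL_le a
  have hb := oL_le b
  refine ⟨β + (1 - oL b), fun c hc1 hc2 => ?_⟩
  obtain ⟨c', hc'⟩ : ∃ c', (rankL a < rankL b ∧ c' + 1 + oL a = c + 1 + oL b + 1) ∨
      (rankL b < rankL a ∧ c' + 1 + oL a + 1 = c + 1 + oL b) := by
    rcases lt_or_gt_of_ne hr with h | h
    · exact ⟨c + 1 + oL b - oL a, Or.inl ⟨h, by omega⟩⟩
    · exact ⟨c + oL b - 1 - oL a, Or.inr ⟨h, by omega⟩⟩
  obtain ⟨h1, h2⟩ := h c' (by omega) (by omega)
  refine ⟨fun he k hk => ?_, fun he => ?_⟩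
  · have hk' := St_nest hx (a := a) (c' := c') (by omega) (by omega) he hc' hk
    have he' : Even (c' + 1 + o) := by
      rw [Nat.even_iff] at *; omega
    rw [map_add, h1 he' k hk', edge_head hq b (by omega) hk, if_pos he]
    push_cast; ring
  · have he' : ¬ Even (c' + 1 + o) := by
      rw [Nat.even_iff] at *; omega
    obtain ⟨k, hk', hk2⟩ := h2 he'
    have he'' : Even (c' + 1 + oL a) := by
      rw [Nat.even_iff] at *; omega
    have hk := St_nest hx (a := b) (b := a) (c := c') (c' := c) (by omega) (by omega) he''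
      (by omega) hk'
    refine ⟨k, hk, ?_⟩
    rw [map_add, hk2, edge_head hq b (by omega) hk, if_neg he]
    ring

end Crest.Agent.H0140
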