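import Crest.Agent.H0140.Basic
import Crest.Prelude.Def_MarkovType

set_option autoImplicit false

open Filter Topology

namespace Crest.Agent.H0140

variable {X : Type*} [NormedAddCommGroup X] [NormedSpace ℝ X]

/-- `x` is the common mean of a finite random sequence in the unit ball with the James-type
lower bound up to index `n` -/
def Fam (δ : ℝ) (n : ℕ) (x : X) : Prop :=
  ∃ (Ω : Type) (_ : Fintype Ω) (π : Ω → ℝ) (M : Ω → ℕ → X),
    (∀ ω, 0 ≤ π ω) ∧ ∑ ω, π ω = 1 ∧ (∀ ω i, ‖M ω i‖ ≤ 1) ∧ (∀ i, ∑ ω, π ω • M ω i = x) ∧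
    ∀ k < n, ∀ (L : ℕ) (a : ℕ → ℝ) (z : X),
      δ / 2 * |∑ i ∈ Finset.range L, if k ≤ i then a i else 0| ≤
        ∑ ω, π ω * ‖z + ∑ i ∈ Finset.range L, a i • M ω i‖

lemma Fam.zero (δ : ℝ) {x : X} (hx : ‖x‖ ≤ 1) : Fam δ 0 x :=
  ⟨Unit, inferInstance, fun _ => 1, fun _ _ => x, by simp, by simp, by simpa, by simp, by simp⟩

lemma Fam.norm_le {δ : ℝ} {n : ℕ} {x : X} (h : Fam δ n x) : ‖x‖ ≤ 1 := by
  obtain ⟨Ω, _, π, M, h0, h1, h2, h3, -⟩ := h
  rw [← h3 0, ← h1]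
  refine (norm_sum_le _ _).trans (Finset.sum_le_sum fun ω _ => ?_)
  rw [norm_smul, Real.norm_of_nonneg (h0 ω)]
  exact mul_le_of_le_one_right (h0 ω) (h2 ω 0)

lemma Fam.neg {δ : ℝ} {n : ℕ} {x : X} (h : Fam δ n x) : Fam δ n (-x) := by
  obtain ⟨Ω, _, π, M, h0, h1, h2, h3, h4⟩ := h
  refine ⟨Ω, inferInstance, π, fun ω i => -M ω i, h0, h1, by simpa using h2, ?_, ?_⟩
  · intro i; simp [← h3 i]
  · intro k hk L a z
    refine (h4 k hk L a (-z)).trans (le_of_eq (Finset.sum_congr rfl fun ω _ => ?_))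
    rw [← norm_neg]
    simp [add_comm]

lemma Fam.convex (δ : ℝ) (n : ℕ) : Convex ℝ {x : X | Fam δ n x} := by
  rintro x ⟨Ω, _, π, M, h0, h1, h2, h3, h4⟩ y ⟨Ω', _, π', M', h0', h1', h2', h3', h4'⟩ s t hs ht hst
  refine ⟨Ω ⊕ Ω', inferInstance, Sum.elim (fun ω => s * π ω) (fun ω => t * π' ω), Sum.elim M M',
    ?_, ?_, ?_, ?_, ?_⟩
  · rintro (ω | ω)
    · exact mul_nonneg hs (h0 ω)
    · exact mul_nonneg ht (h0' ω)
  · simp [Fintype.sum_sum_type, ← Finset.mul_sum, h1, h1', hst]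
  · rintro (ω | ω) i
    · exact h2 ω i
    · exact h2' ω i
  · intro i
    simp [Fintype.sum_sum_type, mul_smul, ← Finset.smul_sum, h3, h3']
  · intro k hk L a z
    have e1 := h4 k hk L a z
    have e2 := h4' k hk L a z
    simp only [Fintype.sum_sum_type, Sum.elim_inl, Sum.elim_inr, mul_assoc, ← Finset.mul_sum]
    have := mul_le_mul_of_nonneg_left e1 hs
    have := mul_le_mul_of_nonneg_left e2 ht
    have e3 : δ / 2 * |∑ i ∈ Finset.range L, if k ≤ i then a i else 0| =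
      (s + t) * (δ / 2 * |∑ i ∈ Finset.range L, if k ≤ i then a i else 0|) := by rw [hst, one_mul]
    linarith

lemma jensen_aux {Ω : Type} [Fintype Ω] (π : Ω → ℝ) (M : Ω → ℕ → X) (x : X)
    (h0 : ∀ ω, 0 ≤ π ω) (h1 : ∑ ω, π ω = 1) (h3 : ∀ i, ∑ ω, π ω • M ω i = x)
    (L : ℕ) (a : ℕ → ℝ) (z : X) :
    ‖z + (∑ i ∈ Finset.range L, a i) • x‖ ≤ ∑ ω, π ω * ‖z + ∑ i ∈ Finset.range L, a i • M ω i‖ := by
  have : z + (∑ i ∈ Finset.range L, a i) • x =
      ∑ ω, π ω • (z + ∑ i ∈ Finset.range L, a i • M ω i) := by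
    simp only [smul_add, Finset.sum_add_distrib, ← Finset.sum_smul, h1, one_smul, Finset.smul_sum]
    rw [Finset.sum_comm, Finset.sum_smul]
    congr 1
    refine Finset.sum_congr rfl fun i _ => ?_
    rw [← h3 i, Finset.smul_sum]
    exact Finset.sum_congr rfl fun ω _ => smul_comm _ _ _
  rw [this]
  refine (norm_sum_le _ _).trans (le_of_eq (Finset.sum_congr rfl fun ω _ => ?_))
  rw [norm_smul, Real.norm_of_nonneg (h0 ω)]

/-- prepend the mean to every sequence of a family -/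
lemma Fam.cons_aux {δ : ℝ} {n : ℕ} {x : X} (h : Fam δ n x) :
    ∃ (Ω : Type) (_ : Fintype Ω) (π : Ω → ℝ) (M : Ω → ℕ → X),
    (∀ ω, 0 ≤ π ω) ∧ ∑ ω, π ω = 1 ∧ (∀ ω i, ‖M ω i‖ ≤ 1) ∧ (∀ i, ∑ ω, π ω • M ω i = x) ∧
    ∀ k < n, ∀ (L : ℕ) (a : ℕ → ℝ) (z : X),
      δ / 2 * |∑ i ∈ Finset.range L, if k + 1 ≤ i then a i else 0| ≤
        ∑ ω, π ω * ‖z + ∑ i ∈ Finset.range L, a i • M ω i‖ := by
  have hx := h.norm_le
  obtain ⟨Ω, _, π, M, h0, h1, h2, h3, h4⟩ := h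
  refine ⟨Ω, inferInstance, π, fun ω i => Nat.casesOn i x (M ω), h0, h1, ?_, ?_, ?_⟩
  · rintro ω (_ | i)
    · exact hx
    · exact h2 ω i
  · rintro (_ | i)
    · simp [← Finset.sum_smul, h1]
    · exact h3 i
  · intro k hk L a z
    rcases L with _ | L
    · simp only [Finset.range_zero, Finset.sum_empty, abs_zero, mul_zero]
      exact Finset.sum_nonneg fun ω _ => mul_nonneg (h0 ω) (norm_nonneg _)
    · have := h4 k hk L (fun i => a (i + 1)) (z + a 0 • x)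
      simp only [Finset.sum_range_succ']
      convert this using 3
      · simp
      · congr 1
        abel

lemma Fam.mid {δ : ℝ} {n : ℕ} {x y : X} (hx : Fam δ n x) (hy : Fam δ n y) (hxy : δ ≤ ‖x - y‖) :
    Fam δ (n + 1) ((1 / 2 : ℝ) • (x + y)) := by
  obtain ⟨Ω, _, π, M, h0, h1, h2, h3, h4⟩ := hx.cons_aux
  obtain ⟨Ω', _, π', M', h0', h1', h2', h3', h4'⟩ := hy.cons_aux
  refine ⟨Ω ⊕ Ω', inferInstance, Sum.elim (fun ω => (1 / 2) * π ω) (fun ω => (1 / 2) * π' ω),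
    Sum.elim M M', ?_, ?_, ?_, ?_, ?_⟩
  · rintro (ω | ω)
    · exact mul_nonneg (by norm_num) (h0 ω)
    · exact mul_nonneg (by norm_num) (h0' ω)
  · simp only [Fintype.sum_sum_type, Sum.elim_inl, Sum.elim_inr, ← Finset.mul_sum, h1, h1']
    norm_num
  · rintro (ω | ω) i
    · exact h2 ω i
    · exact h2' ω i
  · intro i
    simp only [Fintype.sum_sum_type, Sum.elim_inl, Sum.elim_inr, mul_smul, ← Finset.smul_sum,
      h3, h3', smul_add]
  · intro k hk L a z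
    simp only [Fintype.sum_sum_type, Sum.elim_inl, Sum.elim_inr, mul_assoc, ← Finset.mul_sum]
    rcases k with _ | k
    · have e1 := jensen_aux π M x h0 h1 h3 L a z
      have e2 := jensen_aux π' M' y h0' h1' h3' L a z
      simp only [zero_le, if_true]
      set A := ∑ i ∈ Finset.range L, a i
      have e3 : ‖(z + A • x) - (z + A • y)‖ ≤ ‖z + A • x‖ + ‖z + A • y‖ := norm_sub_le _ _
      have e4 : (z + A • x) - (z + A • y) = A • (x - y) := by rw [smul_sub]; abel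
      rw [e4, norm_smul, Real.norm_eq_abs] at e3
      have := mul_le_mul_of_nonneg_left hxy (abs_nonneg A)
      linarith
    · have e1 := h4 k (by omega) L a z
      have e2 := h4' k (by omega) L a z
      linarith

end Crest.Agent.H0140
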