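import Crest.Agent.H0140.Renorm

set_option autoImplicit false

open Filter Topology Metric

namespace Crest.Agent.H0140

variable {X : Type*} [NormedAddCommGroup X] [NormedSpace ℝ X]

lemma infDist_combo {D D' : Set X} (hD : D.Nonempty) {x y z : X} {s t : ℝ} (hs : 0 ≤ s)
    (ht : 0 ≤ t) (η : ℝ) (hη : 0 < η)
    (H : ∀ x' ∈ D, ∀ y' ∈ D, dist x x' < infDist x D + η → dist y y' < infDist y D + η →
      s • x' + t • y' ∈ D') (hz : z = s • x + t • y) :
    infDist z D' ≤ s * infDist x D + t * infDist y D := by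
  refine le_of_forall_pos_le_add fun ε hε => ?_
  set e := min η (ε / (s + t + 1)) with he
  have hst : 0 < s + t + 1 := by linarith
  have he0 : 0 < e := lt_min hη (div_pos hε hst)
  obtain ⟨x', hx', hx⟩ := (infDist_lt_iff hD).1 (lt_add_of_pos_right (infDist x D) he0)
  obtain ⟨y', hy', hy⟩ := (infDist_lt_iff hD).1 (lt_add_of_pos_right (infDist y D) he0)
  have h1 : e ≤ η := min_le_left _ _
  have h2 : e ≤ ε / (s + t + 1) := min_le_right _ _
  have hm := H x' hx' y' hy' (by linarith) (by linarith)
  refine (infDist_le_dist_of_mem hm).trans ?_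
  rw [hz, dist_eq_norm]
  have : s • x + t • y - (s • x' + t • y') = s • (x - x') + t • (y - y') := by
    simp only [smul_sub]; abel
  rw [this]
  refine (norm_add_le _ _).trans ?_
  rw [norm_smul, norm_smul, Real.norm_of_nonneg hs, Real.norm_of_nonneg ht, ← dist_eq_norm,
    ← dist_eq_norm]
  have h3 := mul_le_mul_of_nonneg_left hx.le hs
  have h4 := mul_le_mul_of_nonneg_left hy.le ht
  rw [le_div_iff₀ hst] at h2
  nlinarith

lemma convexOn_infDist' {D : Set X} (hD : D.Nonempty) (hc : Convex ℝ D) :
    ConvexOn ℝ Set.univ (fun x => infDist x D) := by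
  refine ⟨convex_univ, fun x _ y _ s t hs ht hst => ?_⟩
  exact infDist_combo hD hs ht 1 one_pos (fun x' hx' y' hy' _ _ => hc hx' hy' hs ht hst) rfl

omit [NormedSpace ℝ X] in
lemma infDist_neg' {D : Set X} (hD : ∀ x ∈ D, -x ∈ D) (x : X) : infDist (-x) D = infDist x D := by
  have : (fun y : X => -y) '' D = D := by
    ext y
    constructor
    · rintro ⟨z, hz, rfl⟩; exact hD z hz
    · intro hy; exact ⟨-y, hD y hy, neg_neg y⟩
  conv_lhs => rw [← this]
  exact infDist_image (Φ := fun y : X => -y) isometry_neg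

structure Gap (δ γ : ℝ) (g : X → ℝ) : Prop where
  convex : ConvexOn ℝ Set.univ g
  neg : ∀ x, g (-x) = g x
  nonneg : ∀ x, 0 ≤ g x
  zero : g 0 ≤ 1
  lip : ∀ x y, g x ≤ g y + ‖x - y‖
  gap : ∀ x y, ‖x‖ ≤ 1 → ‖y‖ ≤ 1 → 2 * δ ≤ ‖x - y‖ →
    g ((1 / 2 : ℝ) • (x + y)) ≤ (g x + g y) / 2 - γ

lemma exists_gap {δ : ℝ} (hδ : 0 < δ) (h : ∃ n, ∀ x : X, ¬ Fam δ n x) :
    ∃ γ > 0, ∃ g : X → ℝ, Gap δ γ g := by
  classical
  set n := Nat.find h with hn
  have hn1 : ∀ x : X, ¬ Fam δ n x := Nat.find_spec h
  have hn2 : ∀ i < n, ∃ x : X, Fam δ i x := fun i hi => by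
    have := Nat.find_min h hi
    push Not at this
    exact this
  have hn0 : 0 < n := by
    rcases Nat.eq_zero_or_pos n with h0 | h0
    · exact absurd (Fam.zero δ (x := (0 : X)) (by simp)) (h0 ▸ hn1 0)
    · exact h0
  have hnr : (0 : ℝ) < n := by exact_mod_cast hn0
  set D : ℕ → Set X := fun i => {x | Fam δ i x} with hD
  have hDne : ∀ i < n, (D i).Nonempty := hn2
  have hDc : ∀ i, Convex ℝ (D i) := fun i => Fam.convex δ i
  refine ⟨δ / (2 * n) / n, by positivity, fun x => (∑ i ∈ Finset.range n, infDist x (D i)) / n,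
    ?_, ?_, ?_, ?_, ?_, ?_⟩
  · refine ⟨convex_univ, fun x _ y _ s t hs ht hst => ?_⟩
    simp only [smul_eq_mul]
    rw [← mul_div_assoc, ← mul_div_assoc, ← add_div, Finset.mul_sum, Finset.mul_sum,
      ← Finset.sum_add_distrib]
    gcongr with i hi
    exact (convexOn_infDist' (hDne i (Finset.mem_range.1 hi)) (hDc i)).2 (Set.mem_univ x)
      (Set.mem_univ y) hs ht hst
  · intro x
    congr 1
    exact Finset.sum_congr rfl fun i _ => infDist_neg' (D := D i) (fun y hy => Fam.neg (δ := δ) (n := i) hy) x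
  · intro x
    exact div_nonneg (Finset.sum_nonneg fun i _ => infDist_nonneg) hnr.le
  · rw [div_le_one hnr]
    calc ∑ i ∈ Finset.range n, infDist (0 : X) (D i) ≤ ∑ i ∈ Finset.range n, (1 : ℝ) := by
          refine Finset.sum_le_sum fun i hi => ?_
          obtain ⟨y, hy⟩ := hDne i (Finset.mem_range.1 hi)
          refine (infDist_le_dist_of_mem hy).trans ?_
          simpa using Fam.norm_le hy
      _ = n := by simp
  · intro x y
    rw [div_le_iff₀ hnr, add_mul, div_mul_cancel₀ _ hnr.ne']
    calc ∑ i ∈ Finset.range n, infDist x (D i)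
        ≤ ∑ i ∈ Finset.range n, (infDist y (D i) + ‖x - y‖) := by
          refine Finset.sum_le_sum fun i _ => ?_
          rw [← dist_eq_norm]
          exact infDist_le_infDist_add_dist
      _ = _ := by simp [Finset.sum_add_distrib, mul_comm]
  · intro x y hx hy hxy
    set b : ℕ → ℝ := fun i => (infDist x (D i) + infDist y (D i)) / 2 with hb
    have hmem : ∀ i, b i < δ / 2 → ∀ x' ∈ D i, ∀ y' ∈ D i,
        dist x x' < infDist x (D i) + (δ / 2 - b i) → dist y y' < infDist y (D i) + (δ / 2 - b i) →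
        (1 / 2 : ℝ) • x' + (1 / 2 : ℝ) • y' ∈ D (i + 1) := by
      intro i hi x' hx' y' hy' h1 h2
      rw [← smul_add]
      refine Fam.mid hx' hy' ?_
      have e1 : ‖x - y‖ ≤ dist x x' + ‖x' - y'‖ + dist y y' := by
        rw [← dist_eq_norm, ← dist_eq_norm, dist_comm y y']
        exact dist_triangle4 _ _ _ _
      simp only [hb] at h1 h2
      linarith
    have hstep : ∀ i < n, b i < δ / 2 → i + 1 < n ∧
        infDist ((1 / 2 : ℝ) • (x + y)) (D (i + 1)) ≤ b i := by
      intro i hi hbi
      constructor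
      · by_contra hcon
        have : i + 1 = n := by omega
        have h0 : 0 < δ / 2 - b i := by linarith
        obtain ⟨x', hx', hx1⟩ := (infDist_lt_iff (hDne i hi)).1
          (lt_add_of_pos_right (infDist x (D i)) h0)
        obtain ⟨y', hy', hy1⟩ := (infDist_lt_iff (hDne i hi)).1
          (lt_add_of_pos_right (infDist y (D i)) h0)
        have h3 := hmem i hbi x' hx' y' hy' hx1 hy1
        rw [this] at h3
        exact hn1 _ h3
      · have := infDist_combo (hDne i hi) (s := 1 / 2) (t := 1 / 2) (by norm_num) (by norm_num)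
          (δ / 2 - b i) (by linarith) (hmem i hbi) (smul_add (1 / 2 : ℝ) x y)
        simp only [hb]
        linarith
    have hex : ∃ i, i + 1 < n ∧
        infDist ((1 / 2 : ℝ) • (x + y)) (D (i + 1)) ≤ b (i + 1) - δ / (2 * n) := by
      by_contra hcon
      push Not at hcon
      have hind : ∀ i < n, b i ≤ i * (δ / (2 * n)) := by
        intro i
        induction i with
        | zero =>
          intro _
          have e1 : infDist x (D 0) = 0 := infDist_zero_of_mem (Fam.zero δ hx)
          have e2 : infDist y (D 0) = 0 := infDist_zero_of_mem (Fam.zero δ hy)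
          simp [hb, e1, e2]
        | succ i ih =>
          intro hi
          have e1 := ih (by omega)
          have e2 : (i : ℝ) * (δ / (2 * n)) < δ / 2 := by
            have : (i : ℝ) < n := by exact_mod_cast (by omega : i < n)
            calc (i : ℝ) * (δ / (2 * n)) < n * (δ / (2 * n)) := by gcongr
              _ = δ / 2 := by field_simp
          have e3 := (hstep i (by omega) (by linarith)).2
          have e4 := hcon i hi
          push_cast
          linarith
      have e1 := hind (n - 1) (by omega)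
      have e2 : ((n - 1 : ℕ) : ℝ) * (δ / (2 * n)) < δ / 2 := by
        have : ((n - 1 : ℕ) : ℝ) < n := by exact_mod_cast (by omega : n - 1 < n)
        calc ((n - 1 : ℕ) : ℝ) * (δ / (2 * n)) < n * (δ / (2 * n)) := by gcongr
          _ = δ / 2 := by field_simp
      have := (hstep (n - 1) (by omega) (by linarith)).1
      omega
    obtain ⟨i, hi, hi2⟩ := hex
    have hsum : ∑ j ∈ Finset.range n, infDist ((1 / 2 : ℝ) • (x + y)) (D j) ≤
        ∑ j ∈ Finset.range n, (b j - if j = i + 1 then δ / (2 * n) else 0) := by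
      refine Finset.sum_le_sum fun j hj => ?_
      split_ifs with hji
      · rw [hji]; exact hi2
      · have := (convexOn_infDist' (hDne j (Finset.mem_range.1 hj)) (hDc j)).2 (Set.mem_univ x)
          (Set.mem_univ y) (show (0 : ℝ) ≤ 1 / 2 by norm_num) (show (0 : ℝ) ≤ 1 / 2 by norm_num)
          (by norm_num)
        simp only [smul_eq_mul, ← smul_add] at this
        simp only [hb]
        linarith
    rw [Finset.sum_sub_distrib, Finset.sum_ite_eq', if_pos (Finset.mem_range.2 hi)] at hsum
    simp only [hb, ← Finset.sum_div, Finset.sum_add_distrib] at hsum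
    calc _ ≤ ((∑ j ∈ Finset.range n, infDist x (D j) + ∑ j ∈ Finset.range n, infDist y (D j)) / 2
            - δ / (2 * n)) / n := by gcongr
      _ = _ := by ring

lemma renorm_of_gap (h : ∀ δ > 0, ∃ γ > 0, ∃ g : X → ℝ, Gap δ γ g) :
    Crest.AnalysisR.HasEquivUniformlyConvexNorm X := by
  have h' : ∀ k : ℕ, ∃ γ > 0, ∃ g : X → ℝ, Gap (1 / ((k : ℝ) + 1)) γ g :=
    fun k => h _ (by positivity)
  choose γ hγ g hg using h'
  set c : ℕ → ℝ := fun k => (1 / 2 : ℝ) / 2 / 2 ^ k with hc
  have hc0 : ∀ k, 0 < c k := fun k => by positivity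
  have hcs : HasSum c (1 / 2) := hasSum_geometric_two' (1 / 2)
  have hgb : ∀ k x, g k x ≤ 1 + ‖x‖ := fun k x => by
    have := (hg k).lip x 0
    have := (hg k).zero
    simp only [sub_zero] at *
    linarith
  have hsum : ∀ x, Summable fun k => c k * g k x := fun x =>
    Summable.of_nonneg_of_le (fun k => mul_nonneg (hc0 k).le ((hg k).nonneg x))
      (fun k => mul_le_mul_of_nonneg_left (hgb k x) (hc0 k).le) (hcs.summable.mul_right _)
  set G : X → ℝ := fun x => ∑' k, c k * g k x with hG
  have hG0 : ∀ x, 0 ≤ G x := fun x => tsum_nonneg fun k => mul_nonneg (hc0 k).le ((hg k).nonneg x)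
  have hGlip : ∀ x y, G x ≤ G y + ‖x - y‖ / 2 := by
    intro x y
    have e1 : HasSum (fun k => c k * g k y + c k * ‖x - y‖) (G y + 1 / 2 * ‖x - y‖) :=
      (hsum y).hasSum.add (hcs.mul_right _)
    have := hasSum_le (fun k => by
      rw [← mul_add]; exact mul_le_mul_of_nonneg_left ((hg k).lip x y) (hc0 k).le)
      (hsum x).hasSum e1
    linarith
  have hGz : G 0 ≤ 1 / 2 := by
    have := hasSum_le (fun k => mul_le_of_le_one_right (hc0 k).le (hg k).zero) (hsum 0).hasSum hcs
    exact this
  have hGc : ∀ x y (s t : ℝ), 0 ≤ s → 0 ≤ t → s + t = 1 →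
      G (s • x + t • y) ≤ s * G x + t * G y := by
    intro x y s t hs ht hst
    have e1 : HasSum (fun k => s * (c k * g k x) + t * (c k * g k y)) (s * G x + t * G y) :=
      ((hsum x).hasSum.mul_left s).add ((hsum y).hasSum.mul_left t)
    refine hasSum_le (fun k => ?_) (hsum _).hasSum e1
    have := (hg k).convex.2 (Set.mem_univ x) (Set.mem_univ y) hs ht hst
    simp only [smul_eq_mul] at this
    have := mul_le_mul_of_nonneg_left this (hc0 k).le
    linarith
  have hGgap : ∀ (k : ℕ) (x y : X), ‖x‖ ≤ 1 → ‖y‖ ≤ 1 → 2 * (1 / ((k : ℝ) + 1)) ≤ ‖x - y‖ →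
      G ((1 / 2 : ℝ) • (x + y)) ≤ (G x + G y) / 2 - c k * γ k := by
    intro k x y hx hy hxy
    have e1 : HasSum (fun j => ((c j * g j x) + (c j * g j y)) / 2 -
        (if j = k then c k * γ k else 0)) ((G x + G y) / 2 - c k * γ k) :=
      (((hsum x).hasSum.add (hsum y).hasSum).div_const 2).sub (hasSum_ite_eq k _)
    refine hasSum_le (fun j => ?_) (hsum _).hasSum e1
    split_ifs with hj
    · subst hj
      have := mul_le_mul_of_nonneg_left ((hg j).gap x y hx hy hxy) (hc0 j).le
      linarith
    · have := (hg j).convex.2 (Set.mem_univ x) (Set.mem_univ y)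
        (show (0 : ℝ) ≤ 1 / 2 by norm_num) (show (0 : ℝ) ≤ 1 / 2 by norm_num) (by norm_num)
      simp only [smul_eq_mul, ← smul_add] at this
      have := mul_le_mul_of_nonneg_left this (hc0 j).le
      linarith
  set C : Set X := {x | ‖x‖ + G x ≤ 1} with hC
  have hCc : Convex ℝ C := by
    intro x hx y hy s t hs ht hst
    simp only [hC, Set.mem_ofPred_eq] at *
    have e1 := hGc x y s t hs ht hst
    have e2 : ‖s • x + t • y‖ ≤ s * ‖x‖ + t * ‖y‖ := by
      refine (norm_add_le _ _).trans ?_
      rw [norm_smul, norm_smul, Real.norm_of_nonneg hs, Real.norm_of_nonneg ht]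
    have := mul_le_mul_of_nonneg_left hx hs
    have := mul_le_mul_of_nonneg_left hy ht
    linarith
  have hCb : Balanced ℝ C := by
    rw [balanced_iff_neg_mem hCc]
    intro x hx
    simp only [hC, Set.mem_ofPred_eq, hG, norm_neg, (hg _).neg] at *
    exact hx
  have hball : ball (0 : X) (1 / 3) ⊆ C := by
    intro x hx
    rw [mem_ball_zero_iff] at hx
    have := hGlip x 0
    simp only [hC, Set.mem_ofPred_eq, sub_zero] at *
    linarith
  have hnhds : C ∈ 𝓝 (0 : X) := mem_of_superset (ball_mem_nhds _ (by norm_num)) hball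
  have hCa : Absorbent ℝ C := absorbent_nhds_zero hnhds
  have hsub : C ⊆ closedBall 0 1 := by
    intro x hx
    rw [mem_closedBall_zero_iff]
    have := hG0 x
    simp only [hC, Set.mem_ofPred_eq] at hx
    linarith
  have hGcont : Continuous G := by
    refine (LipschitzWith.of_le_add_mul (1 / 2) fun x y => ?_).continuous
    have := hGlip x y
    rw [dist_eq_norm]
    push_cast
    linarith
  have hclosed : IsClosed C := isClosed_le (continuous_norm.add hGcont) continuous_const
  have hup : ∀ x, gauge C x ≤ 3 * ‖x‖ := fun x => by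
    have := mul_gauge_le_norm (x := x) hball
    linarith
  refine ⟨gaugeSeminorm hCb hCc hCa, 1, 3, one_pos, by norm_num, fun x => ⟨?_, hup x⟩, ?_⟩
  · have := le_gauge_of_subset_closedBall (x := x) hCa zero_le_one hsub
    simpa using this
  · intro ε hε _
    obtain ⟨k, hk⟩ := exists_nat_one_div_lt (show 0 < ε / 6 by positivity)
    set η := c k * γ k / 2 with hη
    have hη0 : 0 < η := by have := hc0 k; have := hγ k; positivity
    refine ⟨η / (1 + η), by positivity, fun x y hx hy hxy => ?_⟩
    change gauge C x ≤ 1 at hx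
    change gauge C y ≤ 1 at hy
    change ε ≤ gauge C (x - y) at hxy
    change gauge C ((1 / 2 : ℝ) • (x + y)) ≤ 1 - η / (1 + η)
    rw [gauge_le_one_iff_mem_closure hCc hnhds, hclosed.closure_eq] at hx hy
    have hx1 : ‖x‖ ≤ 1 := mem_closedBall_zero_iff.1 (hsub hx)
    have hy1 : ‖y‖ ≤ 1 := mem_closedBall_zero_iff.1 (hsub hy)
    have e1 := hGgap k x y hx1 hy1 (by have := hup (x - y); linarith)
    set z := (1 / 2 : ℝ) • (x + y) with hz
    have e2 : ‖z‖ ≤ (‖x‖ + ‖y‖) / 2 := by
      rw [hz, norm_smul, Real.norm_of_nonneg (by norm_num)]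
      have := norm_add_le x y
      linarith
    have e3 : (1 + η) • z ∈ C := by
      simp only [hC, Set.mem_ofPred_eq] at *
      have e4 := hGlip ((1 + η) • z) z
      have e5 : (1 + η) • z - z = η • z := by rw [add_smul, one_smul]; abel
      rw [e5, norm_smul, Real.norm_of_nonneg hη0.le] at e4
      rw [norm_smul, Real.norm_of_nonneg (by linarith)]
      have e6 : η * ‖z‖ ≤ η := mul_le_of_le_one_right hη0.le (by linarith)
      rw [add_mul, one_mul]
      linarith
    have e4 := gauge_le_one_of_mem e3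
    rw [gauge_smul_of_nonneg (by linarith), smul_eq_mul] at e4
    have e5 : 1 - η / (1 + η) = 1 / (1 + η) := by field_simp; ring
    rw [e5, le_div_iff₀ (by linarith)]
    linarith

end Crest.Agent.H0140
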