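import Crest.Agent.H0140.Basic

set_option autoImplicit false

open Filter Topology

namespace Crest.Agent.H0140

/-- prepend a value to a sequence -/
def cons (c : ℕ) (k : ℕ → ℕ) : ℕ → ℕ := fun i => Nat.casesOn i c k

@[simp] lemma cons_zero (c : ℕ) (k : ℕ → ℕ) : cons c k 0 = c := rfl
@[simp] lemma cons_succ (c : ℕ) (k : ℕ → ℕ) (i : ℕ) : cons c k (i + 1) = k i := rfl

/-- tensor powers of the hyperfilter -/
noncomputable def W : ℕ → Ultrafilter (ℕ → ℕ)
  | 0 => pure fun _ => 0
  | r + 1 => (hyperfilter ℕ).bind fun c => (W r).map (cons c)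

lemma mem_W_succ (r : ℕ) (s : Set (ℕ → ℕ)) :
    s ∈ W (r + 1) ↔ ∀ᶠ c in (hyperfilter ℕ : Filter ℕ), cons c ⁻¹' s ∈ W r := Iff.rfl

lemma hyper_le : (hyperfilter ℕ : Filter ℕ) ≤ atTop := by
  rw [← Nat.cofinite_eq_atTop]; exact hyperfilter_le_cofinite

lemma W_gt (r c : ℕ) : {k : ℕ → ℕ | ∀ i < r, c < k i} ∈ W r := by
  induction r with
  | zero => exact Filter.univ_mem' fun k i hi => absurd hi (Nat.not_lt_zero i)
  | succ r ih =>
    rw [mem_W_succ]
    refine ((eventually_gt_atTop c).filter_mono hyper_le).mono fun c' hc' => ?_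
    refine Filter.mem_of_superset (Ultrafilter.mem_coe.2 ih) fun k hk => ?_
    rintro (_ | i) hi
    · exact hc'
    · exact hk i (by omega)

lemma W_mono (r : ℕ) : {k : ℕ → ℕ | ∀ i j, i < j → j < r → k i < k j} ∈ W r := by
  induction r with
  | zero => exact Filter.univ_mem' fun k i j _ hj => absurd hj (Nat.not_lt_zero j)
  | succ r ih =>
    rw [mem_W_succ]
    refine Filter.Eventually.of_forall fun c => ?_
    refine Filter.mem_of_superset (Filter.inter_mem (Ultrafilter.mem_coe.2 ih)
      (Ultrafilter.mem_coe.2 (W_gt r c))) fun k hk => ?_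
    rintro (_ | i) (_ | j) hij hj
    · omega
    · exact hk.2 j (by omega)
    · omega
    · exact hk.1 i j (by omega) (by omega)

/-- the marginal on `n` coordinates -/
noncomputable def Vn (n : ℕ) : Ultrafilter (Fin n → ℕ) := (W n).map fun k i => k i

lemma W_marg (r : ℕ) : ∀ (n : ℕ) (s : Fin n → ℕ), StrictMono s → (∀ i, s i < r) →
    (W r).map (fun k i => k (s i)) = Vn n := by
  induction r with
  | zero =>
    intro n s _ hs
    rcases n with _ | n
    · unfold Vn; congr 1; exact Subsingleton.elim _ _
    · exact absurd (hs 0) (Nat.not_lt_zero _)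
  | succ r ih =>
    intro n s hs hr
    rcases n with _ | n
    · ext A
      rcases A.eq_empty_or_nonempty with rfl | hA
      · simp
      · have : A = Set.univ := by
          obtain ⟨a, ha⟩ := hA
          exact Set.eq_univ_of_forall fun b => Subsingleton.elim a b ▸ ha
        subst this
        exact iff_of_true Filter.univ_mem Filter.univ_mem
    · rcases Nat.eq_zero_or_pos (s 0) with h0 | h0
      · have hpos : ∀ i : Fin n, 0 < s i.succ := fun i => h0 ▸ hs (Fin.succ_pos i)
        have h1 := ih n (fun i => s i.succ - 1) (fun i j hij => by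
          have := hs (Fin.succ_lt_succ_iff.2 hij)
          have := hpos i
          simp only
          omega) (fun i => by have := hr i.succ; have := hpos i; omega)
        have h2 : (W n).map (fun k (i : Fin n) => k i) = Vn n := rfl
        ext A
        rw [Vn, Ultrafilter.mem_map, Ultrafilter.mem_map, mem_W_succ, mem_W_succ]
        refine Filter.eventually_congr (Filter.Eventually.of_forall fun c => ?_)
        have e1 : cons c ⁻¹' ((fun (k : ℕ → ℕ) i => k (s i)) ⁻¹' A) =
            (fun (k : ℕ → ℕ) (i : Fin n) => k (s i.succ - 1)) ⁻¹'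
              ((fun q : Fin n → ℕ => (Fin.cons c q : Fin (n + 1) → ℕ)) ⁻¹' A) := by
          ext k
          simp only [Set.mem_preimage]
          refine iff_of_eq (congrArg (· ∈ A) (funext fun i => ?_))
          refine Fin.cases ?_ (fun i => ?_) i
          · simp [h0]
          · obtain ⟨m, hm⟩ : ∃ m, s i.succ = m + 1 := ⟨s i.succ - 1, by have := hpos i; omega⟩
            simp [hm]
        have e2 : cons c ⁻¹' ((fun (k : ℕ → ℕ) (i : Fin (n + 1)) => k i) ⁻¹' A) =
            (fun (k : ℕ → ℕ) (i : Fin n) => k i) ⁻¹'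
              ((fun q : Fin n → ℕ => (Fin.cons c q : Fin (n + 1) → ℕ)) ⁻¹' A) := by
          ext k
          simp only [Set.mem_preimage]
          refine iff_of_eq (congrArg (· ∈ A) (funext fun i => ?_))
          refine Fin.cases ?_ (fun i => ?_) i
          · simp
          · simp
        rw [e1, e2, ← Ultrafilter.mem_map, h1, ← h2, Ultrafilter.mem_map]
      · have hpos : ∀ i, 0 < s i := fun i => h0.trans_le (hs.monotone (Fin.zero_le i))
        have h1 := ih (n + 1) (fun i => s i - 1) (fun i j hij => by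
          have := hs hij
          have := hpos i
          simp only
          omega) (fun i => by have := hr i; have := hpos i; omega)
        ext A
        rw [← h1, Ultrafilter.mem_map, Ultrafilter.mem_map, mem_W_succ]
        have e1 : ∀ c, cons c ⁻¹' ((fun (k : ℕ → ℕ) i => k (s i)) ⁻¹' A) =
            (fun (k : ℕ → ℕ) i => k (s i - 1)) ⁻¹' A := by
          intro c
          ext k
          simp only [Set.mem_preimage]
          refine iff_of_eq (congrArg (· ∈ A) (funext fun i => ?_))
          obtain ⟨m, hm⟩ : ∃ m, s i = m + 1 := ⟨s i - 1, by have := hpos i; omega⟩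
          simp [hm]
        simp only [e1, Filter.eventually_const]

/-- diagonal ultrafilter -/
noncomputable def Winf : Ultrafilter (ℕ → ℕ) := (hyperfilter ℕ).bind W

lemma mem_Winf (s : Set (ℕ → ℕ)) :
    s ∈ Winf ↔ ∀ᶠ r in (hyperfilter ℕ : Filter ℕ), s ∈ W r := Iff.rfl

lemma Winf_marg (n : ℕ) (s : Fin n → ℕ) (hs : StrictMono s) :
    Winf.map (fun k i => k (s i)) = Vn n := by
  ext A
  rw [Ultrafilter.mem_map, mem_Winf]
  have h1 : ∀ᶠ r in (hyperfilter ℕ : Filter ℕ), ∀ i, s i < r :=
    (Filter.eventually_all.2 fun i => eventually_gt_atTop (s i)).filter_mono hyper_le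
  have h2 : ∀ᶠ r in (hyperfilter ℕ : Filter ℕ),
      ((fun (k : ℕ → ℕ) i => k (s i)) ⁻¹' A ∈ W r ↔ A ∈ Vn n) :=
    h1.mono fun r hr => by rw [← W_marg r n s hs hr, Ultrafilter.mem_map]
  rw [Filter.eventually_congr h2, Filter.eventually_const]

lemma Winf_mono (r : ℕ) : {k : ℕ → ℕ | ∀ i j, i < j → j < r → k i < k j} ∈ Winf := by
  rw [mem_Winf]
  refine ((eventually_ge_atTop r).filter_mono hyper_le).mono fun r' hr' => ?_
  exact Filter.mem_of_superset (Ultrafilter.mem_coe.2 (W_mono r')) fun k hk i j hij hj =>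
    hk i j hij (by omega)

/-- spreading model -/
lemma exists_spread {p K θ : ℝ} (hp : 0 ≤ p) {N : V → ℝ} (hN : Good p K N) (hL : Low θ N) :
    ∃ N1 : V → ℝ, Good p K N1 ∧ Low θ N1 ∧
      ∀ s : ℕ → ℕ, StrictMono s → ∀ a, N1 (Finsupp.mapDomain s a) = N1 a := by
  have hG : ∀ k : ℕ → ℕ, Good p K (fun a => N (Finsupp.lmapDomain ℝ ℝ k a)) := fun k =>
    hN.comp _ fun i => by simpa using hN.single_le (k i)
  obtain ⟨N1, h1, hlim⟩ := exists_ulim hp Winf _ hG
  simp only [Finsupp.lmapDomain_apply] at hlim
  refine ⟨N1, h1, fun j a => ?_, fun s hs a => ?_⟩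
  · obtain ⟨L, hL'⟩ := (insert j a.support).exists_nat_subset_range
    refine ge_of_tendsto (hlim a) ?_
    refine Filter.mem_of_superset (Ultrafilter.mem_coe.2 (Winf_mono L)) fun k hk => ?_
    have := hL (k j) (Finsupp.mapDomain k a)
    rw [tail, lc_mapDomain] at this
    have hj : j < L := Finset.mem_range.1 (hL' (Finset.mem_insert_self _ _))
    have e : lc ((fun i => if k j ≤ i then (1 : ℝ) else 0) ∘ k) a = tail j a := by
      refine lc_congr fun i hi => ?_
      have hi' : i < L := Finset.mem_range.1 (hL' (Finset.mem_insert_of_mem hi))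
      simp only [Function.comp]
      refine if_congr ?_ rfl rfl
      rcases lt_trichotomy i j with h | h | h
      · have := hk i j h hj; omega
      · subst h; simp
      · have := hk j i h hi'; omega
    rwa [e] at this
  · obtain ⟨L, hL'⟩ := a.support.exists_nat_subset_range
    set g : (Fin L → ℕ) → ℝ := fun q =>
      N (Finsupp.mapDomain (fun i => if h : i < L then q ⟨i, h⟩ else 0) a) with hg
    have key : ∀ k : ℕ → ℕ, N (Finsupp.mapDomain k a) = g (fun i => k i) := by
      intro k
      simp only [hg]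
      congr 1
      refine Finsupp.mapDomain_congr fun i hi => ?_
      rw [dif_pos (Finset.mem_range.1 (hL' hi))]
    have e1 : Tendsto g (Vn L) (𝓝 (N1 a)) := by
      rw [← Winf_marg L (fun i => (i : ℕ)) (fun i j h => h), Ultrafilter.coe_map, tendsto_map'_iff]
      refine (hlim a).congr fun k => key k
    have e2 : Tendsto g (Vn L) (𝓝 (N1 (Finsupp.mapDomain s a))) := by
      rw [← Winf_marg L (fun i => s i) (fun i j h => hs h), Ultrafilter.coe_map, tendsto_map'_iff]
      refine (hlim _).congr fun k => ?_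
      rw [← Finsupp.mapDomain_comp]
      exact key (k ∘ s)
    exact tendsto_nhds_unique e2 e1

end Crest.Agent.H0140
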